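import Vale.Agent.P181.H12.Long
import Vale.Agent.P181.T7.Last

set_option autoImplicit false

/-!
# P181: long second row

Foulkes' inequality for `lam 1 ≥ a ^ (2 + ε)` and `a ^ (1 + ε) ≤ lam 2 + lam 3 + … ≤ a ^ 2`
(rows numbered from `0`), and the consequences for `b ≥ a ^ (1 + ε)`.
-/

namespace Vale.Agent.P181.H12

open Finset Filter Vale.Agent.P181.T4 Vale.Agent.P181.T7 Vale.Agent.P181.H280

lemma below_eq {a : ℕ} (lam : Fin a → ℕ) : below 2 lam = ∑ i, low 2 lam i := by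
  unfold below
  rw [Finset.sum_Ico_eq_sum_range, Finset.sum_range]
  rfl

lemma below_one {a : ℕ} (ha : 2 ≤ a) (lam : Fin a → ℕ) :
    below 1 lam = ex lam 1 + below 2 lam := by
  unfold below
  rw [Finset.sum_eq_sum_Ico_succ_bot (by omega)]

/-- **(beta)** -/
theorem beta (ε : ℝ) (hε : 0 < ε) : ∀ᶠ a : ℕ in atTop, ∀ (b : ℕ) (lam : Fin a → ℕ),
    b ≤ a ^ 2 → Antitone lam → ∑ i, lam i = a * b → (a : ℝ) ^ (2 + ε) ≤ ex lam 1 →
    (a : ℝ) ^ (1 + ε) ≤ below 2 lam → below 2 lam ≤ a ^ 2 →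
    plethMult a b a lam ≤ plethMult b a a lam := by
  have hε' : 0 < min ε 1 := lt_min hε one_pos
  filter_upwards [short (min ε 1) hε' (min_le_right _ _), long (min ε 1) hε' (min_le_right _ _),
    eventually_ge_atTop 2] with a hs hl ha b lam hb hlam hsum h1 h2 h3
  have ha1 : (1 : ℝ) ≤ a := by exact_mod_cast (by omega : 1 ≤ a)
  rw [below_eq] at h2 h3
  have h1' : (a : ℝ) ^ (2 + min ε 1) ≤ ex lam 1 := by
    refine le_trans ?_ h1
    exact Real.rpow_le_rpow_of_exponent_le ha1 (by linarith [min_le_left ε 1])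
  have h2' : (a : ℝ) ^ (1 + min ε 1) ≤ ((∑ i, low 2 lam i : ℕ) : ℝ) := by
    refine le_trans ?_ h2
    exact Real.rpow_le_rpow_of_exponent_le ha1 (by linarith [min_le_left ε 1])
  set x := ex lam (2 + (⌊(a : ℝ) ^ (min ε 1 / 8)⌋₊ - 2)) with hx
  have h4 : ∑ i : Fin (a - 2), (ex lam (2 + i) - x) + ∑ i : Fin (a - 2), min (ex lam (2 + i)) x =
      ∑ i, low 2 lam i := by
    rw [← Finset.sum_add_distrib]
    refine Finset.sum_congr rfl fun i _ => ?_
    have : low 2 lam i = ex lam (2 + i) := rfl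
    omega
  by_cases hc : ∑ i, low 2 lam i ≤ 2 * ∑ i : Fin (a - 2), (ex lam (2 + i) - x)
  · exact hs b lam hb hlam hsum h1' h2' h3 hc
  · have h5 : ∑ i, low 2 lam i ≤ 2 * ∑ i : Fin (a - 2), min (ex lam (2 + i)) x := by omega
    exact hl b lam hb hlam hsum h1' h2' h3 h5

lemma ev_ge (c C : ℝ) (hc : 0 < c) : ∀ᶠ a : ℕ in atTop, C ≤ (a : ℝ) ^ c := by
  have h1 : Tendsto (fun a : ℕ => (a : ℝ) ^ c) atTop atTop :=
    (tendsto_rpow_atTop hc).comp tendsto_natCast_atTop_atTop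
  exact h1.eventually_ge_atTop C

/-- Second row at least `a ^ (2 + ε)`, at most `a ^ 2` boxes below it, `b ≥ a ^ (1 + ε)`. -/
theorem second_row (ε : ℝ) (hε : 0 < ε) : ∀ᶠ a : ℕ in atTop, ∀ b : ℕ, (a : ℝ) ^ (1 + ε) ≤ b →
    b ≤ a ^ 2 → ∀ lam : Fin a → ℕ, Antitone lam → ∑ i, lam i = a * b →
    (a : ℝ) ^ (2 + ε) ≤ ex lam 1 → below 2 lam ≤ a ^ 2 →
    plethMult a b a lam ≤ plethMult b a a lam := by
  filter_upwards [beta (ε / 2) (by positivity), ev_ge (ε / 2) 2 (by positivity),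
    eventually_ge_atTop 2] with a hbeta h2 ha b hb hb2 lam hlam hsum h1 h3
  have ha1 : (1 : ℝ) ≤ a := by exact_mod_cast (by omega : 1 ≤ a)
  have ha0 : (0 : ℝ) < a := by linarith
  by_cases hf : below 2 lam + a ≤ b + 1
  · exact few ha lam hf
  · push Not at hf
    refine hbeta b lam hb2 hlam hsum ?_ ?_ h3
    · refine le_trans ?_ h1
      exact Real.rpow_le_rpow_of_exponent_le ha1 (by linarith)
    · have h4 : (b : ℝ) + 1 < below 2 lam + a := by exact_mod_cast hf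
      have h5 : (a : ℝ) ^ (1 + ε) = (a : ℝ) ^ (1 + ε / 2) * (a : ℝ) ^ (ε / 2) := by
        rw [← Real.rpow_add ha0]
        congr 1
        ring
      have h6 : (a : ℝ) ≤ (a : ℝ) ^ (1 + ε / 2) := by
        conv_lhs => rw [← Real.rpow_one (a : ℝ)]
        exact Real.rpow_le_rpow_of_exponent_le ha1 (by linarith)
      rw [h5] at hb
      nlinarith

/-- **The condition on the first row only.** `FStmt` and `beta` together: for `b ≥ a ^ (1 + ε)`
every `lam` with at least `a ^ (2 + ε)` boxes below the first row. -/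
theorem first_row (hF : FStmt) (hBig : BigStmt) (ε : ℝ) (hε : 0 < ε) : ∀ᶠ a : ℕ in atTop,
    ∀ b : ℕ, (a : ℝ) ^ (1 + ε) ≤ b → ∀ lam : Fin a → ℕ, Antitone lam → ∑ i, lam i = a * b →
    (a : ℝ) ^ (2 + ε) ≤ below 1 lam → plethMult a b a lam ≤ plethMult b a a lam := by
  set δ : ℝ := min (ε / 2) (1 / 2) with hδ
  have hδ0 : 0 < δ := lt_min (by positivity) (by norm_num)
  have hδε : δ ≤ ε / 2 := min_le_left _ _
  have hδ2 : δ ≤ 1 / 2 := min_le_right _ _
  filter_upwards [hF δ hδ0, second_row δ hδ0, ev_ge δ 2 hδ0, ev_ge (ε - δ) 2 (by linarith),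
    eventually_ge_atTop 2] with a hFa hs h2 h2' ha b hb lam hlam hsum h1
  have ha1 : (1 : ℝ) ≤ a := by exact_mod_cast (by omega : 1 ≤ a)
  have ha0 : (0 : ℝ) < a := by linarith
  by_cases hbig : (a - 1) ^ 2 ≤ b
  · exact hBig a b a lam hbig
  have hb2 : b ≤ a ^ 2 := by
    have h3 : (a - 1) ^ 2 ≤ a ^ 2 := Nat.pow_le_pow_left (by omega) 2
    omega
  have hbδ : (a : ℝ) ^ (1 + δ) ≤ b := by
    refine le_trans ?_ hb
    exact Real.rpow_le_rpow_of_exponent_le ha1 (by linarith)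
  by_cases hD : (a : ℝ) ^ (3 / 2 + δ) ≤ below 2 lam
  · exact hFa b hbδ lam hlam hsum hD
  · push Not at hD
    have h4 : (a : ℝ) ^ (3 / 2 + δ) ≤ (a : ℝ) ^ (2 : ℝ) :=
      Real.rpow_le_rpow_of_exponent_le ha1 (by linarith)
    have h5 : (a : ℝ) ^ (2 : ℝ) = (a : ℝ) ^ 2 := by
      rw [← Real.rpow_natCast]; norm_num
    refine hs b hbδ hb2 lam hlam hsum ?_ ?_
    · rw [below_one ha lam] at h1
      push_cast at h1
      have h6 : (a : ℝ) ^ (2 + ε) = (a : ℝ) ^ (2 + δ) * (a : ℝ) ^ (ε - δ) := by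
        rw [← Real.rpow_add ha0]
        congr 1
        ring
      have h7 : (a : ℝ) ^ (2 : ℝ) ≤ (a : ℝ) ^ (2 + δ) :=
        Real.rpow_le_rpow_of_exponent_le ha1 (by linarith)
      rw [h6] at h1
      have h8 : (below 2 lam : ℝ) ≤ (a : ℝ) ^ (2 + δ) := hD.le.trans (h4.trans h7)
      have h9 : (a : ℝ) ^ (2 + δ) * 2 ≤ (a : ℝ) ^ (2 + δ) * (a : ℝ) ^ (ε - δ) :=
        mul_le_mul_of_nonneg_left h2' (by positivity)
      linarith
    · have h6 : (below 2 lam : ℝ) ≤ (a : ℝ) ^ 2 := hD.le.trans (h4.trans_eq h5)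
      exact_mod_cast h6

end Vale.Agent.P181.H12
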