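import Vale.Agent.P181.H162.Fill

set_option autoImplicit false

/-!
# P181: a fixed filling of given columns with prescribed contents
-/

open scoped Classical

namespace Vale.Agent.P181.H12

open Finset Vale.Agent.P181.H162

/-- The positions of a filling given by sets. -/
lemma exists_enum {N n : ℕ} (s : Finset (Fin N)) (hs : s.card = n) :
    ∃ f : Fin n → Fin N, Function.Injective f ∧
      ∀ q, (univ.filter fun i => f i = q).card = if q ∈ s then 1 else 0 := by
  refine ⟨fun i => ((s.equivFinOfCardEq hs).symm i : Fin N), ?_, ?_⟩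
  · intro i j h
    exact (s.equivFinOfCardEq hs).symm.injective (Subtype.ext h)
  · intro q
    split_ifs with h
    · rw [card_eq_one]
      refine ⟨s.equivFinOfCardEq hs ⟨q, h⟩, ?_⟩
      ext i
      simp only [mem_filter, mem_univ, true_and, mem_singleton]
      constructor
      · intro hi
        exact (s.equivFinOfCardEq hs).symm_apply_eq.mp (Subtype.ext hi)
      · rintro rfl
        simp
    · rw [card_eq_zero, filter_eq_empty_iff]
      intro i _ hi
      exact h (hi ▸ ((s.equivFinOfCardEq hs).symm i).2)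

/-- A filling of the columns of `F` with prescribed contents. -/
theorem exists_fix {N : ℕ} {C : Type} [Fintype C] (n : C → ℕ) (F : Finset C) (g : Fin N → ℕ)
    (nmax gmax : ℕ) (hN : 0 < N) (hn : ∀ c ∈ F, n c ≤ nmax) (hnN : nmax ≤ N)
    (hg : ∀ q, g q ≤ gmax) (hsum : ∑ q, g q = ∑ c ∈ F, n c)
    (hroom : nmax * (2 * gmax) < ∑ c ∈ F, n c) :
    ∃ fx : (c : C) → Fin (n c) → Fin N, (∀ c ∈ F, Function.Injective (fx c)) ∧
      ∀ q, ∑ c ∈ F, (univ.filter fun s => fx c s = q).card = g q := by
  have e : ∀ f : C → ℕ, ∑ c ∈ F, f c = ∑ c : {c : C // c ∈ F}, f c := fun f =>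
    (Finset.sum_coe_sort F f).symm
  obtain ⟨β, -, h2, h3⟩ := exists_fill (α := Fin N) (ι := {c : C // c ∈ F}) (fun c => n c)
    (fun _ => ∅) g nmax gmax 0 (fun c => by simp) (fun c => hn c c.2)
    (fun c => by
      rw [Fintype.card_fin]
      exact (hn c c.2).trans hnN)
    (fun q => by simp [dg]) (fun q => by simp [dg]) hg (by rw [hsum, e])
    (by
      simp only [card_empty, Nat.sub_zero, add_zero]
      rw [← e]
      exact hroom)
  choose f hf1 hf2 using fun c : {c : C // c ∈ F} => exists_enum (β c) (h2 c)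
  refine ⟨fun c => if h : c ∈ F then f ⟨c, h⟩ else fun _ => ⟨0, hN⟩, ?_, ?_⟩
  · intro c hc
    simp only [dif_pos hc]
    exact hf1 ⟨c, hc⟩
  · intro q
    rw [← h3 q, e, dg, card_filter]
    refine sum_congr rfl fun c _ => ?_
    simp only [dif_pos c.2]
    exact hf2 c q

end Vale.Agent.P181.H12
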