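import Mathlib

set_option autoImplicit false

/-!
# P181: numbers of the design with two heads
-/

namespace Vale.Agent.P181.H12

open Finset

lemma sum_bal (N X : ℕ) (hN : 0 < N) :
    ∑ q : Fin N, (X / N + if (q : ℕ) < X % N then 1 else 0) = X := by
  rw [Fin.sum_univ_eq_sum_range (fun q => X / N + if q < X % N then 1 else 0) N,
    Finset.sum_add_distrib, Finset.sum_const, Finset.card_range, smul_eq_mul,
    ← Finset.card_filter]
  have h : (range N).filter (fun q => q < X % N) = range (X % N) := by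
    ext x
    simp only [mem_filter, mem_range]
    have := Nat.mod_lt X hN
    omega
  rw [h, card_range]
  exact Nat.div_add_mod X N

lemma sum_cls (K P : ℕ) : ∑ z : Fin K × Fin P × Bool, (z.1 : ℕ) = P * (K * (K - 1)) := by
  rw [Fintype.sum_prod_type]
  simp only [Finset.sum_const, Finset.card_univ, Fintype.card_prod, Fintype.card_fin,
    Fintype.card_bool, smul_eq_mul]
  rw [← Finset.mul_sum, Fin.sum_univ_eq_sum_range (fun k => k) K, mul_assoc, mul_comm 2,
    Finset.sum_range_id_mul_two]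

/-- the numbers of pure letters and of marks -/
lemma exists_ws {a b N D L0 L1 : ℕ} (ha : 0 < a) (h01 : L1 ≤ L0) (hsum : L0 + L1 + D = a * b)
    (hD : 8 * D ≤ a * N) (hN : 8 ≤ N) (h1 : 3 * (a * N) ≤ L1) :
    ∃ w0 w1 t0 t1 : ℕ, L0 = a * w0 + t0 ∧ L1 = a * w1 + t1 ∧ w0 + w1 + N = b ∧ w1 < w0 ∧
      2 * N ≤ w1 ∧ t0 + t1 + D = a * N ∧ a * N ≤ 4 * t0 + 3 ∧ 4 * t0 ≤ a * N + 4 * a := by
  set τ := a * N / 4 with hτ
  set w0 := (L0 - τ) / a with hw0
  have e1 := Nat.div_add_mod (L0 - τ) a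
  have e2 := Nat.mod_lt (L0 - τ) ha
  rw [← hw0] at e1
  set r := (L0 - τ) % a with hr
  have hτ1 : 4 * τ ≤ a * N := Nat.mul_div_le _ _
  have hτ2 : a * N ≤ 4 * τ + 3 := by omega
  have hτ3 : τ ≤ L0 := by omega
  -- a * w0 + r + τ = L0
  have e3 : a * w0 + (r + τ) = L0 := by omega
  have haN : 8 * a ≤ a * N := by
    calc 8 * a = a * 8 := by ring
      _ ≤ a * N := Nat.mul_le_mul_left _ hN
  have h3 : a * (N + w0) ≤ a * b := by
    rw [mul_add]
    omega
  have h4 : N + w0 ≤ b := Nat.le_of_mul_le_mul_left h3 ha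
  obtain ⟨w1, hw1⟩ : ∃ w1, b = w1 + (N + w0) := ⟨b - (N + w0), by omega⟩
  have h5 : a * b = a * w1 + (a * N + a * w0) := by
    rw [hw1]; ring
  have h6 : a * w1 ≤ L1 := by omega
  refine ⟨w0, w1, r + τ, L1 - a * w1, by omega, by omega, by omega, ?_, ?_, by omega, by omega,
    by omega⟩
  · by_contra h
    push Not at h
    have := Nat.mul_le_mul_left a h
    omega
  · by_contra h
    push Not at h
    have h7 : w1 + 1 ≤ 2 * N := h
    have := Nat.mul_le_mul_left a h7
    have h8 : a * (w1 + 1) = a * w1 + a := by ring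
    have h9 : a * (2 * N) = 2 * (a * N) := by ring
    omega

end Vale.Agent.P181.H12
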