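import Vale.Agent.P181.H12.LowFix
import Vale.Agent.P181.H12.Fix
import Vale.Agent.P181.H12.Nums
import Vale.Agent.P181.H727.TopA
import Vale.Agent.P181.H310.Typ

set_option autoImplicit false

/-!
# P181: two heads and classes of contents, the numbers as hypotheses
-/

open scoped Classical

namespace Vale.Agent.P181.H12

open Finset Vale.Agent.P181.T4 Vale.Agent.P181.H463 Vale.Agent.P181.T7 Vale.Agent.P181.H280
open Vale.Agent.P181.H727

/-- the length of the column `c` of the shape `Λ` with `m` rows -/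
noncomputable def colLen (m : ℕ) (Λ : ℕ → ℕ) (c : ℕ) : ℕ :=
  ((range m).filter fun i => c < Λ i).card

lemma colLen_le (m : ℕ) (Λ : ℕ → ℕ) (c : ℕ) : colLen m Λ c ≤ m := by
  have := card_filter_le (range m) (fun i => c < Λ i)
  rwa [card_range] at this

lemma ex_zero {a : ℕ} (lam : Fin a → ℕ) {i : ℕ} (hi : a ≤ i) : ex lam i = 0 := by
  unfold T4.ex
  rw [dif_neg (by omega)]

lemma ex_antitone {a : ℕ} {lam : Fin a → ℕ} (h : Antitone lam) : Antitone (ex lam) :=
  fun _ _ hij => ex_anti h hij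

/-- The frame for one type system. -/
noncomputable def dat {a N w0 w1 b Θ : ℕ} (Λ : ℕ → ℕ) (u : Fin N → ℕ → ℕ)
    (hlam : Antitone Λ) (hu : ∀ q, ∀ i < 2, 2 ≤ u q i)
    (h0 : Λ 0 = a * w0 + ∑ q, u q 0) (h1 : Λ 1 = a * w1 + ∑ q, u q 1)
    (hw : w1 < w0) (hw1 : 2 * N ≤ w1) (hN : 0 < N) (hb : w0 ≤ b)
    (hΘ : ∑ q : Fin N, (u q 0 + u q 1) = Θ) (hex : Λ 2 + Θ ≤ Λ 1)
    (hroom : 2 * b + 2 * N + Θ ≤ Λ 1) (hcap : 2 * (b / w1 + 1) + 3 ≤ a) : Dat where
  R := 2
  k := a
  N := N
  lam := Λ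
  w := fun i => if (i : ℕ) = 0 then w0 else w1
  u := u
  W := b
  Θ := Θ
  hlam := hlam
  hR := le_rfl
  hu := hu
  h1 := by
    intro i
    rcases i with ⟨i, hi⟩
    interval_cases i
    · simpa using h0
    · simpa using h1
  hpos := by
    intro i
    split_ifs <;> omega
  hW := by
    intro i
    split_ifs <;> omega
  hN := by
    intro i
    split_ifs <;> omega
  hΘ := by
    rw [← hΘ]
    refine sum_congr rfl fun q _ => ?_
    rw [Fin.sum_univ_two]
    rfl
  hex := hex
  hroom := hroom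
  hcap := by
    intro i
    have h2 : b / w0 ≤ b / w1 := Nat.div_le_div_left hw.le (by omega)
    split_ifs
    · omega
    · omega

lemma cap_num {a b w1 : ℕ} (ha : 100 ≤ a) (hb : b ≤ a ^ 2) (hw : 8 * a ≤ w1) :
    2 * (b / w1 + 1) + 3 ≤ a := by
  have g1 : b / w1 ≤ a / 8 + 1 := by
    have g2 : b / w1 ≤ b / (8 * a) := Nat.div_le_div_left hw (by omega)
    have g3 : b / (8 * a) ≤ a ^ 2 / (8 * a) := Nat.div_le_div_right hb
    have g4 : a ^ 2 / (8 * a) = a / 8 := by
      rw [pow_two, Nat.mul_comm 8 a, Nat.mul_div_mul_left _ _ (by omega)]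
    omega
  omega

/-- the numbers and the types -/
theorem exists_types {a b N K P h B D D' L0 L1 : ℕ} (h01 : L1 ≤ L0)
    (hsplit : L0 + L1 + D = a * b) (hηB : D' + B = D)
    (hN : N = K * P * 2) (hD : 8 * D ≤ a * N) (ha : 100 ≤ a) (hN4 : 4 * a ≤ N)
    (h3 : 3 * (a * N) ≤ L1)
    (hh : 16 * (h + 1) ≤ a) (hK : 30 * K + 40 ≤ a)
    (hBK : 3 * (P * (K * (K - 1))) ≤ B) :
    ∃ (w0 w1 t0 t1 : ℕ) (cq dq : Fin N → ℕ) (typ : H310.TypIx 1 h K P → Fin N → ℕ → ℕ),
      L0 = a * w0 + t0 ∧ L1 = a * w1 + t1 ∧ w0 + w1 + N = b ∧ w1 < w0 ∧ 2 * N ≤ w1 ∧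
      ∑ q, cq q = B ∧ (∀ q, cq q ≤ 3 * K + (B - 3 * (P * (K * (K - 1)))) / N + 1) ∧
      ∑ q, dq q = D' ∧ (∀ i j, dq i ≤ dq j + 1) ∧
      (∀ u, ∑ q, typ u q 0 = t0) ∧ (∀ u, ∑ q, typ u q 1 = t1) ∧
      (∀ u, ∑ q : Fin N, (typ u q 0 + typ u q 1) = a * N - D) ∧
      (∀ u q, typ u q 0 + typ u q 1 + (dq q + cq q) = a) ∧
      (∀ u q, ∀ i < 2, 2 ≤ typ u q i) ∧
      (∀ u q q', (∀ i < 2, typ u q i = typ u q' i) → q = q') ∧
      (∀ u u' (ρ : Equiv.Perm (Fin N)), (∀ q, ∀ i < 2, typ u' q i = typ u (ρ q) i) → u = u') := by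
  have hNpos : 0 < N := by omega
  set G := B - 3 * (P * (K * (K - 1))) with hG
  obtain ⟨w0, w1, t0, t1, e0, e1, ew, hw, hw1, et, ht0, ht0'⟩ := exists_ws (N := N) (by omega)
    h01 hsplit hD (by omega) h3
  -- letters
  have hcardN : Fintype.card (Fin K × Fin P × Bool) = N := by
    rw [Fintype.card_prod, Fintype.card_prod, Fintype.card_fin, Fintype.card_fin,
      Fintype.card_bool, hN, mul_assoc]
  let ι : (Fin K × Fin P × Bool) ≃ Fin N := Fintype.equivFinOfCardEq hcardN
  let cq : Fin N → ℕ := fun q => 3 * ((ι.symm q).1 : ℕ) + (G / N + if (q : ℕ) < G % N then 1 else 0)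
  let dq : Fin N → ℕ := fun q => D' / N + if (q : ℕ) < D' % N then 1 else 0
  have hcsum : ∑ q, cq q = B := by
    have h4 : ∑ q : Fin N, ((ι.symm q).1 : ℕ) = P * (K * (K - 1)) := by
      rw [← sum_cls K P]
      exact Equiv.sum_comp ι.symm (fun z : Fin K × Fin P × Bool => (z.1 : ℕ))
    simp only [cq]
    rw [Finset.sum_add_distrib, ← Finset.mul_sum, h4, sum_bal N G hNpos]
    omega
  have hdsum : ∑ q, dq q = D' := sum_bal N D' hNpos
  have hkq : ∀ q : Fin N, ((ι.symm q).1 : ℕ) < K := fun q => (ι.symm q).1.2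
  have hcle : ∀ q, cq q ≤ 3 * K + G / N + 1 := by
    intro q
    have := hkq q
    simp only [cq]
    split_ifs <;> omega
  -- the degrees
  have hGD : G / N + D' / N ≤ D / N := by
    rw [Nat.le_div_iff_mul_le hNpos, add_mul]
    have h4 := Nat.div_mul_le_self G N
    have h5 := Nat.div_mul_le_self D' N
    omega
  have hDN : 8 * (D / N) ≤ a := by
    have h4 : (8 * (D / N)) * N ≤ a * N := by
      calc (8 * (D / N)) * N = 8 * (D / N * N) := by ring
        _ ≤ 8 * D := Nat.mul_le_mul_left _ (Nat.div_mul_le_self D N)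
        _ ≤ a * N := hD
    exact Nat.le_of_mul_le_mul_right h4 hNpos
  have hcd : ∀ q, dq q + cq q ≤ D / N + 3 * K + 2 := by
    intro q
    have := hkq q
    simp only [cq, dq]
    split_ifs <;> omega
  have hcda : ∀ q, dq q + cq q ≤ a := by
    intro q
    have := hcd q
    omega
  let s : Fin N → ℕ := fun q => a - (dq q + cq q)
  have hs : ∀ q, s q + (dq q + cq q) = a := by
    intro q
    have := hcda q
    simp only [s]
    omega
  have hssum : ∑ q, s q + D = a * N := by
    have h4 : ∑ q, (s q + (dq q + cq q)) = N * a := by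
      rw [Finset.sum_congr rfl fun q _ => hs q]
      simp
    rw [Finset.sum_add_distrib, Finset.sum_add_distrib, hdsum, hcsum] at h4
    rw [mul_comm a N, ← h4, ← hηB]
  let t : ℕ → ℕ := fun i => if i = 0 then t0 else t1
  have ht1a : a ≤ 2 * (t1 / N) + 1 := by
    have h4 : a * N ≤ 2 * t1 := by
      have haN : 32 * a ≤ a * N := by
        calc 32 * a = a * 32 := by ring
          _ ≤ a * N := Nat.mul_le_mul_left _ (by omega)
      omega
    have h5 : a / 2 ≤ t1 / N := by
      rw [Nat.le_div_iff_mul_le hNpos]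
      have h6 : a / 2 * N * 2 ≤ a * N := by
        calc a / 2 * N * 2 = a / 2 * 2 * N := by ring
          _ ≤ a * N := Nat.mul_le_mul_right _ (Nat.div_mul_le_self a 2)
      omega
    omega
  have ht1b : 4 * (t1 / N + D / N) ≤ 3 * a := by
    have h4 : 4 * (t1 / N + D / N) * N ≤ 3 * (a * N) + 3 := by
      have h5 := Nat.div_mul_le_self t1 N
      have h6 := Nat.div_mul_le_self D N
      calc 4 * (t1 / N + D / N) * N = 4 * (t1 / N * N) + 4 * (D / N * N) := by ring
        _ ≤ 3 * (a * N) + 3 := by omega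
    by_contra hcon
    push Not at hcon
    have h7 : 3 * a + 1 ≤ 4 * (t1 / N + D / N) := hcon
    have h8 := Nat.mul_le_mul_right N h7
    have h9 : (3 * a + 1) * N = 3 * (a * N) + N := by ring
    omega
  obtain ⟨typ, p1, p2, p3, -, p5, p6⟩ := H310.typ_family (R := 2) (r := 1) (h := h) (K := K)
    (P := P) s t (by
      rw [Finset.sum_range_succ, Finset.sum_range_one]
      simp only [t, if_true]
      simp
      omega) (by omega) ι ι.injective (by
      intro k k' p p' b' he
      have g1 := hs (ι (k, p, b'))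
      have g2 := hs (ι (k', p', b'))
      have g3 : dq (ι (k, p, b')) + cq (ι (k, p, b')) = dq (ι (k', p', b')) + cq (ι (k', p', b')) := by
        omega
      simp only [dq, cq, Equiv.symm_apply_apply] at g3
      apply Fin.ext
      split_ifs at g3 <;> omega) (by
      intro q q' _ hq
      exact absurd (ι.apply_symm_apply q) (hq (ι.symm q))) (lo := 2) (by
      intro i hi1 hi2
      have : i = 1 := by omega
      subst this
      simp only [t]
      simp
      omega) (by
      intro i hi1 hi2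
      omega) (by
      intro q
      have g1 := hs q
      have g2 := hcd q
      rw [Finset.sum_eq_single 1 (by
        intro i hi hne
        rw [Finset.mem_Ico] at hi
        omega) (by simp)]
      simp only [t]
      simp
      omega)
  have g1 : ∀ u q, typ u q 0 + typ u q 1 = s q := by
    intro u q
    rw [← p2 u q, Finset.sum_range_succ, Finset.sum_range_one]
  refine ⟨w0, w1, t0, t1, cq, dq, typ, e0, e1, ew, hw, hw1, hcsum, hcle, hdsum, ?_,
    fun u => p1 u 0 (by omega), fun u => p1 u 1 (by omega), ?_, ?_, p3, p5, p6⟩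
  · intro i j
    simp only [dq]
    split_ifs <;> omega
  · intro u
    rw [Finset.sum_congr rfl fun q _ => g1 u q]
    exact Nat.eq_sub_of_add_eq hssum
  · intro u q
    rw [g1 u q, hs q]

theorem branch {a b N K P h B nmax : ℕ} (lam : Fin a → ℕ) (hlam : Antitone lam)
    (hsum : ∑ i, lam i = a * b) (F : Finset (Fin (ex lam 0))) (η : Fin (a - 2) → ℕ)
    (hη : ∀ i : Fin (a - 2), (univ.filter fun c : Fin (ex lam 0) =>
      c ∉ F ∧ 2 + (i : ℕ) < colLen a (ex lam) c).card = η i)
    (hB : ∑ c ∈ F, (colLen a (ex lam) c - 2) = B)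
    (hηB : ∑ i, η i + B = ∑ i, low 2 lam i)
    (hN : N = K * P * 2) (hD : 8 * ∑ i, low 2 lam i ≤ a * N) (ha : 100 ≤ a) (hN4 : 4 * a ≤ N)
    (hb : b ≤ a ^ 2) (h3 : 3 * (a * N) ≤ ex lam 1) (hr : 2 * b + 2 * N + a * N ≤ ex lam 1)
    (hh : 16 * (h + 1) ≤ a) (hK : 30 * K + 40 ≤ a)
    (hn : ∀ c ∈ F, colLen a (ex lam) c - 2 ≤ nmax) (hnN : nmax ≤ N)
    (hBK : 3 * (P * (K * (K - 1))) ≤ B)
    (hroom : nmax * (2 * (3 * K + (B - 3 * (P * (K * (K - 1)))) / N + 1)) < B) :
    (h.choose P) ^ K * gt (a - 2) N η ≤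
      ((∑ i, η i) + N - 1).choose (N - 1) * plethMult b a a lam := by
  have hNpos : 0 < N := by omega
  -- the first two rows
  have hsplit : ex lam 0 + ex lam 1 + ∑ i, low 2 lam i = a * b := by
    have h4 := T4.sum_split (show 2 ≤ a by omega) lam
    rw [hsum, Finset.sum_range_succ, Finset.sum_range_one] at h4
    omega
  obtain ⟨w0, w1, t0, t1, cq, dq, typ, e0, e1, ew, hw, hw1, hcsum, hcle, hdsum, hbal, hp0, hp1,
    hΘ, hpt, hlo, hinj, hU⟩ := exists_types (h := h) (ex_anti hlam (Nat.zero_le 1)) hsplit hηB hN hD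
      ha hN4 h3 hh hK hBK
  obtain ⟨fx, hfx1, hfx2⟩ := exists_fix (N := N) (C := Fin (ex lam 0))
    (fun c => colLen a (ex lam) c - 2) F cq
    nmax (3 * K + (B - 3 * (P * (K * (K - 1)))) / N + 1) hNpos hn hnN hcle (by rw [hcsum, hB])
    (by rw [hB]; exact hroom)
  have hL2 : ex lam 2 ≤ ∑ i, low 2 lam i := by
    have g1 := Finset.single_le_sum (f := low 2 lam) (fun i _ => Nat.zero_le _)
      (Finset.mem_univ (⟨0, by omega⟩ : Fin (a - 2)))
    exact g1
  have hex : ex lam 2 + (a * N - ∑ i, low 2 lam i) ≤ ex lam 1 := by omega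
  have hroom2 : 2 * b + 2 * N + (a * N - ∑ i, low 2 lam i) ≤ ex lam 1 := by omega
  have hcap : 2 * (b / w1 + 1) + 3 ≤ a := cap_num ha hb (by omega)
  let Dt : H310.TypIx 1 h K P → Dat := fun u => dat (a := a) (N := N) (w0 := w0) (w1 := w1)
    (b := b) (Θ := a * N - ∑ i, low 2 lam i) (ex lam) (typ u) (ex_antitone hlam)
    (fun q i hi => hlo u q i hi)
    (by rw [hp0 u]; exact e0)
    (by rw [hp1 u]; exact e1) hw hw1 hNpos (by omega) (hΘ u)
    hex hroom2 hcap
  have hstrict : ∀ u, StrictAnti (Dt u).w := by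
    intro u i j hij
    have hi := i.2
    have hj : (j : ℕ) < 2 := j.2
    have hij' : (i : ℕ) < j := hij
    change (if (j : ℕ) = 0 then w0 else w1) < (if (i : ℕ) = 0 then w0 else w1)
    rw [if_neg (by omega), if_pos (by omega)]
    exact hw
  have hm : ∀ i, a ≤ i → ex lam i = 0 := fun i hi => ex_zero lam hi
  have htyp : ∀ u (q : Fin N) (i : ℕ), i < 2 → ((Dt u).top7 a hm).typ q i = typ u q i :=
    fun u q i hi => (Dt u).top7_typ hm q hi
  have hcardU : Fintype.card (H310.TypIx 1 h K P) = (h.choose P) ^ K := by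
    rw [H310.card_typIx]
    simp
  rw [← hcardU]
  refine low_le_fix (m := a) (R := 2) (N := N) (b := b) (k := a)
    (T := Σ i : Fin 2, Fin (if (i : ℕ) = 0 then w0 else w1)) (cls := fun t => (t.1 : ℕ))
    (fun t => t.1.2) (U := H310.TypIx 1 h K P) (fun _ => Fin (ex lam 0))
    (fun u => (Dt u).top7 a hm) (fun _ => F) η (fun _ => fx) (fun _ c hc => hfx1 c hc)
    (fun _ => dq) (fun i => if i = 0 then t0 else t1) lam ?_ ?_ ?_ ?_ ?_ ?_ ?_ ?_ ?_ ?_ ?_
  · rw [Fintype.card_sigma, Fin.sum_univ_two]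
    simp
    omega
  · intro u i
    exact ((Dt u).top7_rows hm i).trans (ex_of_lt lam i.2)
  · intro u i
    rw [← hη i]
    congr 1
    ext c
    simp only [mem_filter, mem_univ, true_and]
    exact Iff.rfl
  · intro u x
    exact (Dt u).top7_inc hm x
  · intro u q
    rw [Finset.sum_range_succ, Finset.sum_range_one]
    have g2 : ∑ c ∈ F, (univ.filter fun s => fx c s = q).card = cq q := hfx2 q
    have k : ((Dt u).top7 a hm).typ q 0 + ((Dt u).top7 a hm).typ q 1 +
        (dq q + ∑ c ∈ F, (univ.filter fun s => fx c s = q).card) = a := by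
      rw [g2]
      exact (congrArg₂ (fun x y => x + y + (dq q + cq q)) (htyp u q 0 (by omega))
        (htyp u q 1 (by omega))).trans (hpt u q)
    exact k
  · intro u
    exact hbal
  · intro u
    exact hdsum
  · intro u lo
    exact (Dt u).top7_forced hm (hstrict u) _ lo
  · intro u i hi
    have k : ∑ q : Fin N, ((Dt u).top7 a hm).typ q i = ∑ q, typ u q i :=
      Finset.sum_congr rfl fun q _ => htyp u q i hi
    refine Eq.trans k ?_
    interval_cases i
    · exact hp0 u
    · exact hp1 u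
  · rintro u u' ⟨σ, hσ⟩
    refine (hU u' u σ fun q i hi => ?_).symm
    exact (htyp u q i hi).symm.trans ((hσ q i hi).trans (htyp u' (σ q) i hi))
  · intro u q q' hq
    refine hinj u q q' fun i hi => ?_
    exact (htyp u q i hi).symm.trans ((hq i hi).trans (htyp u q' i hi))

end Vale.Agent.P181.H12
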