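import Vale.Agent.P181.H12.Branch

set_option autoImplicit false

/-!
# P181: the columns of the fixed part
-/

open scoped Classical

namespace Vale.Agent.P181.H12

open Finset Vale.Agent.P181.T4 Vale.Agent.P181.H463

lemma lt_colLen {m : ℕ} {Λ : ℕ → ℕ} (hΛ : Antitone Λ) (hm : ∀ i, m ≤ i → Λ i = 0) (i c : ℕ) :
    i < colLen m Λ c ↔ c < Λ i := by
  have key : ∀ j, c < Λ j → j + 1 ≤ colLen m Λ c := by
    intro j hj
    have hjm : j < m := by
      by_contra h
      rw [hm j (by omega)] at hj
      omega
    have hsub : range (j + 1) ⊆ (range m).filter fun i => c < Λ i := by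
      intro k hk
      rw [mem_range] at hk
      rw [mem_filter, mem_range]
      exact ⟨by omega, lt_of_lt_of_le hj (hΛ (by omega))⟩
    have := card_le_card hsub
    rwa [card_range] at this
  constructor
  · intro h
    by_contra hcon
    have hsub : ((range m).filter fun i => c < Λ i) ⊆ range i := by
      intro k hk
      rw [mem_filter] at hk
      rw [mem_range]
      by_contra hk'
      exact hcon (lt_of_lt_of_le hk.2 (hΛ (by omega)))
    have := card_le_card hsub
    rw [card_range] at this
    unfold colLen at h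
    omega
  · intro h
    exact key i h

lemma card_fin_lt {n m : ℕ} (h : m ≤ n) :
    ((univ : Finset (Fin n)).filter fun c : Fin n => (c : ℕ) < m).card = m := by
  have h2 : (univ.filter fun c : Fin n => (c : ℕ) < m).map Fin.valEmbedding = range m := by
    ext c
    simp only [mem_map, mem_filter, mem_univ, true_and, Fin.valEmbedding_apply, mem_range]
    constructor
    · rintro ⟨c', hc', rfl⟩
      exact hc'
    · intro hc
      exact ⟨⟨c, by omega⟩, hc, rfl⟩
  rw [← card_map, h2, card_range]

lemma card_fin_Ico {n x y : ℕ} (h : y ≤ n) :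
    ((univ : Finset (Fin n)).filter fun c : Fin n => x ≤ (c : ℕ) ∧ (c : ℕ) < y).card = y - x := by
  have h2 : (univ.filter fun c : Fin n => x ≤ (c : ℕ) ∧ (c : ℕ) < y).map Fin.valEmbedding =
      Ico x y := by
    ext c
    simp only [mem_map, mem_filter, mem_univ, true_and, Fin.valEmbedding_apply, mem_Ico]
    constructor
    · rintro ⟨c', hc', rfl⟩
      exact hc'
    · intro hc
      exact ⟨⟨c, by omega⟩, hc, rfl⟩
  rw [← card_map, h2, Nat.card_Ico]

section

variable {a : ℕ} {lam : Fin a → ℕ} (hlam : Antitone lam)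

include hlam in
lemma lt_colLen_ex (i c : ℕ) : i < colLen a (ex lam) c ↔ c < ex lam i :=
  lt_colLen (ex_antitone hlam) (fun _ hi => ex_zero lam hi) i c

/-- the rows of the columns of `F` -/
noncomputable def muF (lam : Fin a → ℕ) (F : Finset (Fin (ex lam 0))) (i : Fin (a - 2)) : ℕ :=
  (univ.filter fun c : Fin (ex lam 0) => c ∈ F ∧ 2 + (i : ℕ) < colLen a (ex lam) c).card

/-- the rows of the columns outside `F` -/
noncomputable def etaF (lam : Fin a → ℕ) (F : Finset (Fin (ex lam 0))) (i : Fin (a - 2)) : ℕ :=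
  (univ.filter fun c : Fin (ex lam 0) => c ∉ F ∧ 2 + (i : ℕ) < colLen a (ex lam) c).card

lemma muF_anti (F : Finset (Fin (ex lam 0))) : Antitone (muF lam F) := by
  intro i j hij
  have h : (i : ℕ) ≤ j := hij
  refine card_le_card ?_
  intro c hc
  rw [mem_filter] at hc ⊢
  exact ⟨hc.1, hc.2.1, by omega⟩

lemma etaF_anti (F : Finset (Fin (ex lam 0))) : Antitone (etaF lam F) := by
  intro i j hij
  have h : (i : ℕ) ≤ j := hij
  refine card_le_card ?_
  intro c hc
  rw [mem_filter] at hc ⊢
  exact ⟨hc.1, hc.2.1, by omega⟩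

include hlam in
lemma eta_add_mu (F : Finset (Fin (ex lam 0))) (i : Fin (a - 2)) :
    etaF lam F i + muF lam F i = low 2 lam i := by
  have hle : ex lam (2 + i) ≤ ex lam 0 := ex_anti hlam (Nat.zero_le _)
  have h1 : ((univ : Finset (Fin (ex lam 0))).filter
      fun c : Fin (ex lam 0) => (c : ℕ) < ex lam (2 + i)).card = low 2 lam i := card_fin_lt hle
  rw [← h1, etaF, muF, ← card_union_of_disjoint]
  · congr 1
    ext c
    simp only [mem_union, mem_filter, mem_univ, true_and, lt_colLen_ex hlam]
    tauto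
  · rw [disjoint_left]
    intro c hc hc'
    rw [mem_filter] at hc hc'
    exact hc.2.1 hc'.2.1

include hlam in
lemma sum_eta_mu (F : Finset (Fin (ex lam 0))) :
    ∑ i, etaF lam F i + ∑ i, muF lam F i = ∑ i, low 2 lam i := by
  rw [← Finset.sum_add_distrib]
  exact Finset.sum_congr rfl fun i _ => eta_add_mu hlam F i

lemma sum_mu (F : Finset (Fin (ex lam 0))) :
    ∑ i, muF lam F i = ∑ c ∈ F, (colLen a (ex lam) c - 2) := by
  simp only [muF, card_filter]
  rw [sum_comm]
  rw [← Finset.sum_subset (Finset.subset_univ F)]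
  · refine Finset.sum_congr rfl fun c hc => ?_
    simp only [hc, true_and]
    rw [← card_filter]
    have h1 := colLen_le a (ex lam) c
    have h2 := card_fin_lt (n := a - 2) (m := colLen a (ex lam) c - 2) (by omega)
    rw [← h2]
    congr 1
    ext i
    simp only [mem_filter, mem_univ, true_and]
    omega
  · intro c _ hc
    simp [hc]

/-- the columns in `[x, y)` -/
noncomputable def FI (lam : Fin a → ℕ) (x y : ℕ) : Finset (Fin (ex lam 0)) :=
  univ.filter fun c => x ≤ (c : ℕ) ∧ (c : ℕ) < y

include hlam in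
lemma mu_FI (x y : ℕ) (i : Fin (a - 2)) :
    muF lam (FI lam x y) i = min y (ex lam (2 + i)) - x := by
  have hle : ex lam (2 + i) ≤ ex lam 0 := ex_anti hlam (Nat.zero_le _)
  rw [← card_fin_Ico (n := ex lam 0) (x := x) (y := min y (ex lam (2 + i))) (by omega), muF]
  congr 1
  ext c
  simp only [FI, mem_filter, mem_univ, true_and, lt_colLen_ex hlam, lt_min_iff]
  tauto

include hlam in
/-- Choice of the end of the interval. -/
lemma exists_y {x Bt nmax : ℕ} (hn : ∀ c, x ≤ c → colLen a (ex lam) c - 2 ≤ nmax)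
    (hpos : 0 < nmax) (hA : Bt ≤ ∑ i : Fin (a - 2), (ex lam (2 + i) - x)) :
    ∃ y, Bt ≤ ∑ c ∈ FI lam x y, (colLen a (ex lam) c - 2) ∧
      ∑ c ∈ FI lam x y, (colLen a (ex lam) c - 2) < Bt + nmax := by
  have hex : ∃ y, Bt ≤ ∑ c ∈ FI lam x y, (colLen a (ex lam) c - 2) := by
    refine ⟨ex lam 0, ?_⟩
    rw [← sum_mu]
    refine hA.trans (le_of_eq ?_)
    refine Finset.sum_congr rfl fun i _ => ?_
    rw [mu_FI hlam, min_eq_right (ex_anti hlam (Nat.zero_le _))]
  refine ⟨Nat.find hex, Nat.find_spec hex, ?_⟩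
  rcases Nat.eq_zero_or_pos (Nat.find hex) with h0 | h0
  · rw [h0]
    have : FI lam x 0 = ∅ := by
      ext c
      simp [FI]
    rw [this, Finset.sum_empty]
    omega
  · obtain ⟨y, hy⟩ : ∃ y, Nat.find hex = y + 1 := ⟨Nat.find hex - 1, by omega⟩
    have h1 := Nat.find_min hex (m := y) (by omega)
    push Not at h1
    rw [hy]
    by_cases hc : x ≤ y ∧ y < ex lam 0
    · have h2 : FI lam x (y + 1) = insert ⟨y, hc.2⟩ (FI lam x y) := by
        ext c
        simp only [FI, mem_insert, mem_filter, mem_univ, true_and, Fin.ext_iff]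
        omega
      have h3 : (⟨y, hc.2⟩ : Fin (ex lam 0)) ∉ FI lam x y := by
        simp [FI]
      rw [h2, Finset.sum_insert h3]
      have := hn y hc.1
      simp only
      omega
    · have h2 : FI lam x (y + 1) = FI lam x y := by
        ext c
        have := c.2
        simp only [FI, mem_filter, mem_univ, true_and]
        omega
      rw [h2]
      omega

end

end Vale.Agent.P181.H12
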