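import Vale.Agent.P181.H921.Col
import Vale.Agent.P181.H539.Growth

set_option autoImplicit false

/-!
# P181: `gt n N (eta + mu) ≤ gt n N eta * gt n N mu`
-/

namespace Vale.Agent.P181.H12

open Finset Vale.Agent.P181.H463 Vale.Agent.P181.H921

lemma nxt_add {n : ℕ} (eta mu : Fin n → ℕ) (i : Fin n) :
    nxt (fun i => eta i + mu i) i = nxt eta i + nxt mu i := by
  unfold nxt
  split_ifs <;> simp

/-- Adding two shapes. -/
theorem gt_add_le {n : ℕ} (N : ℕ) : ∀ {eta mu : Fin n → ℕ}, Antitone eta → Antitone mu →
    gt n N (fun i => eta i + mu i) ≤ gt n N eta * gt n N mu := by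
  classical
  induction N with
  | zero =>
    intro eta mu _ _
    by_cases h : (fun i => eta i + mu i) = 0
    · have h1 : eta = 0 := by
        funext i
        have := congrFun h i
        simp only [Pi.zero_apply] at this ⊢
        omega
      have h2 : mu = 0 := by
        funext i
        have := congrFun h i
        simp only [Pi.zero_apply] at this ⊢
        omega
      subst h1; subst h2
      simp only [gt, if_true, mul_one]
      split_ifs <;> simp
    · simp [gt, h]
  | succ N ih =>
    intro eta mu heta hmu
    rw [gt, gt, gt, Finset.sum_mul_sum]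
    rw [← Finset.sum_product']
    have hsub : strips (fun i => eta i + mu i) ⊆
        (strips eta ×ˢ strips mu).image (fun p i => p.1 i + p.2 i) := by
      intro nu hnu
      rw [mem_strips] at hnu
      rw [mem_image]
      refine ⟨(fun i => max (nxt eta i) (nu i - mu i),
        fun i => nu i - max (nxt eta i) (nu i - mu i)), ?_, ?_⟩
      · rw [mem_product, mem_strips, mem_strips]
        refine ⟨fun i => ?_, fun i => ?_⟩
        · have h1 := hnu i
          rw [nxt_add] at h1
          have h2 := nxt_le heta i
          have h3 := nxt_le hmu i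
          simp only
          omega
        · have h1 := hnu i
          rw [nxt_add] at h1
          have h2 := nxt_le heta i
          have h3 := nxt_le hmu i
          simp only
          omega
      · funext i
        have h1 := hnu i
        rw [nxt_add] at h1
        have h2 := nxt_le heta i
        have h3 := nxt_le hmu i
        simp only
        omega
    calc ∑ nu ∈ strips (fun i => eta i + mu i), gt n N nu
        ≤ ∑ nu ∈ (strips eta ×ˢ strips mu).image (fun p i => p.1 i + p.2 i), gt n N nu :=
          sum_le_sum_of_subset hsub
      _ ≤ ∑ p ∈ strips eta ×ˢ strips mu, gt n N (fun i => p.1 i + p.2 i) := by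
          have := Finset.sum_image_le_of_nonneg (s := strips eta ×ˢ strips mu)
            (g := fun (p : (Fin n → ℕ) × (Fin n → ℕ)) (i : Fin n) => p.1 i + p.2 i)
            (f := fun nu => gt n N nu) (fun _ _ => Nat.zero_le _)
          exact this
      _ ≤ ∑ p ∈ strips eta ×ˢ strips mu, gt n N p.1 * gt n N p.2 := by
          refine sum_le_sum fun p hp => ?_
          rw [mem_product] at hp
          exact ih (strips_antitone heta hp.1) (strips_antitone hmu hp.2)

/-- At most `L` rows of length at most `M`. -/
theorem gt_rows_le {n L M : ℕ} (N : ℕ) : ∀ {mu : Fin n → ℕ}, (∀ i, mu i ≤ M) →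
    (∀ i : Fin n, L ≤ (i : ℕ) → mu i = 0) → gt n N mu ≤ (M + 1) ^ (L * N) := by
  classical
  induction N with
  | zero =>
    intro mu _ _
    simp only [gt, mul_zero, pow_zero]
    split_ifs <;> simp
  | succ N ih =>
    intro mu hM hL
    rw [gt]
    have hcard : (strips mu).card ≤ (M + 1) ^ L := by
      rw [strips, Fintype.card_piFinset]
      calc ∏ i : Fin n, (Finset.Icc (nxt mu i) (mu i)).card
          ≤ ∏ i : Fin n, (if (i : ℕ) < L then M + 1 else 1) := by
            refine Finset.prod_le_prod (fun _ _ => Nat.zero_le _) fun i _ => ?_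
            rw [Nat.card_Icc]
            have := hM i
            split_ifs with h
            · omega
            · have := hL i (by omega)
              omega
        _ = (M + 1) ^ ((Finset.univ : Finset (Fin n)).filter
              (fun i : Fin n => (i : ℕ) < L)).card := by
            rw [Finset.prod_ite]
            simp
        _ ≤ (M + 1) ^ L := by
            refine Nat.pow_le_pow_right (by omega) ?_
            calc ((Finset.univ : Finset (Fin n)).filter (fun i : Fin n => (i : ℕ) < L)).card
                ≤ (Finset.range L).card := by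
                  refine Finset.card_le_card_of_injOn (fun i : Fin n => (i : ℕ)) ?_ ?_
                  · intro i hi
                    simpa using hi
                  · intro i _ j _ h
                    exact Fin.ext h
              _ = L := Finset.card_range L
    calc ∑ nu ∈ strips mu, gt n N nu ≤ ∑ _nu ∈ strips mu, (M + 1) ^ (L * N) := by
          refine Finset.sum_le_sum fun nu hnu => ?_
          rw [mem_strips] at hnu
          refine ih (fun i => ((hnu i).2).trans (hM i)) fun i hi => ?_
          have h1 := (hnu i).2
          rw [hL i hi] at h1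
          omega
      _ = (strips mu).card * (M + 1) ^ (L * N) := by rw [Finset.sum_const, smul_eq_mul]
      _ ≤ (M + 1) ^ L * (M + 1) ^ (L * N) := Nat.mul_le_mul_right _ hcard
      _ = (M + 1) ^ (L * (N + 1)) := by rw [← pow_add]; congr 1; ring

lemma geom_le (N m : ℕ) : ∑ j ∈ Finset.Icc 0 m, N ^ j ≤ (N + 1) ^ m := by
  have h : Finset.Icc 0 m = Finset.range (m + 1) := by
    ext x; simp
  rw [h, add_pow]
  refine Finset.sum_le_sum fun j hj => ?_
  rw [Finset.mem_range] at hj
  rw [one_pow, mul_one]
  refine Nat.le_mul_of_pos_right _ ?_
  exact Nat.choose_pos (by omega)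

/-- `gt n N mu ≤ N ^ |mu|` -/
theorem gt_le_pow {n : ℕ} (N : ℕ) : ∀ (mu : Fin n → ℕ), gt n N mu ≤ N ^ (∑ i, mu i) := by
  classical
  induction N with
  | zero =>
    intro mu
    simp only [gt]
    split_ifs with h
    · subst h; simp
    · exact Nat.zero_le _
  | succ N ih =>
    intro mu
    rw [gt]
    calc ∑ nu ∈ strips mu, gt n N nu ≤ ∑ nu ∈ strips mu, N ^ (∑ i, nu i) :=
          Finset.sum_le_sum fun nu _ => ih nu
      _ ≤ ∑ nu ∈ Fintype.piFinset (fun i => Finset.Icc 0 (mu i)), N ^ (∑ i, nu i) := by
          refine Finset.sum_le_sum_of_subset ?_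
          intro nu hnu
          rw [mem_strips] at hnu
          rw [Fintype.mem_piFinset]
          intro i
          rw [Finset.mem_Icc]
          exact ⟨Nat.zero_le _, (hnu i).2⟩
      _ = ∑ nu ∈ Fintype.piFinset (fun i => Finset.Icc 0 (mu i)), ∏ i, N ^ nu i := by
          refine Finset.sum_congr rfl fun nu _ => ?_
          rw [Finset.prod_pow_eq_pow_sum]
      _ = ∏ i, ∑ j ∈ Finset.Icc 0 (mu i), N ^ j :=
          (Finset.prod_univ_sum (fun i => Finset.Icc 0 (mu i)) (fun _ j => N ^ j)).symm
      _ ≤ ∏ i, (N + 1) ^ mu i :=
          Finset.prod_le_prod (fun _ _ => Nat.zero_le _) fun i _ => geom_le N (mu i)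
      _ = (N + 1) ^ (∑ i, mu i) := by rw [Finset.prod_pow_eq_pow_sum]

end Vale.Agent.P181.H12
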