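import Vale.Agent.P181.H12.Cols
import Vale.Agent.P181.H12.GtAdd
import Vale.Agent.P181.H403.Num7
import Vale.Agent.P181.H539.UpStmt

set_option autoImplicit false

/-!
# P181: comparison of the two multiplicities
-/

open scoped Classical

namespace Vale.Agent.P181.H12

open Finset Vale.Agent.P181.T4 Vale.Agent.P181.H463 Vale.Agent.P181.H280

/-- **Comparison**, the numbers as hypotheses. -/
theorem compare {a b N K P h B nmax : ℕ} (lam : Fin a → ℕ) (hlam : Antitone lam)
    (hsum : ∑ i, lam i = a * b) (F : Finset (Fin (ex lam 0)))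
    (hB : ∑ c ∈ F, (colLen a (ex lam) c - 2) = B)
    (hN : N = K * P * 2) (hD : 8 * ∑ i, low 2 lam i ≤ a * N) (ha : 100 ≤ a) (hN4 : 4 * a ≤ N)
    (hb : b ≤ a ^ 2) (h3 : 3 * (a * N) ≤ ex lam 1) (hr : 2 * b + 2 * N + a * N ≤ ex lam 1)
    (hh : 16 * (h + 1) ≤ a) (hK : 30 * K + 40 ≤ a)
    (hn : ∀ c ∈ F, colLen a (ex lam) c - 2 ≤ nmax) (hnN : nmax ≤ N)
    (hBK : 3 * (P * (K * (K - 1))) ≤ B)
    (hroom : nmax * (2 * (3 * K + (B - 3 * (P * (K * (K - 1)))) / N + 1)) < B)
    (hPh : P ≤ h) (cost G : ℝ) (hcost0 : 0 ≤ cost)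
    (hcost : (gt (a - 2) a (muF lam F) : ℝ) ≤ cost) (hG0 : 0 < G)
    (hG : G ≤ ∏ i, (1 + (etaF lam F i : ℝ) / N))
    (hnum : ((ex lam 0 : ℝ) + 1) ^ (a * 2) * cost *
      (((∑ i, etaF lam F i) + N - 1).choose (N - 1) : ℝ) ≤
      (((h.choose P) ^ K : ℕ) : ℝ) * G ^ (N - a)) :
    plethMult a b a lam ≤ plethMult b a a lam := by
  have hηB : ∑ i, etaF lam F i + B = ∑ i, low 2 lam i := by
    rw [← sum_eta_mu hlam F, sum_mu, hB]
  have hC := branch lam hlam hsum F (etaF lam F) (fun i => rfl) hB hηB hN hD ha hN4 hb h3 hr hh hK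
    hn hnN hBK hroom
  have hle : ∀ i : ℕ, ex lam i ≤ ex lam 0 := fun i => ex_anti hlam (Nat.zero_le i)
  have h1 := plethMult_le_pow (a := a) (b := b) (c := a) (R := 2) (m := a - 2) (by omega) lam
    (ex lam 0) (fun i _ => by
      have := hle i
      rwa [ex_of_lt lam i.2] at this)
  have h2 : (fun i : Fin (a - 2) => lam ⟨2 + i, by have := i.isLt; omega⟩) = low 2 lam := by
    funext i
    have := i.isLt
    rw [low, ex_of_lt lam (by omega)]
  rw [h2] at h1
  have h3' := H539.up_stmt (a - 2) a (low 2 lam) (low_anti hlam 2)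
  have h4 := Vale.Agent.P181.H539.gt_growth_prod (n := a - 2) (a := a) (N := N) (by omega)
    (by omega) (by omega) (lam := etaF lam F) (etaF_anti F)
  have h5 : gt (a - 2) a (low 2 lam) ≤
      gt (a - 2) a (etaF lam F) * gt (a - 2) a (muF lam F) := by
    have e : low 2 lam = fun i => etaF lam F i + muF lam F i := by
      funext i
      exact (eta_add_mu hlam F i).symm
    rw [e]
    exact gt_add_le a (etaF_anti F) (muF_anti F)
  have h6 : plethMult a b a lam ≤ (ex lam 0 + 1) ^ (2 * a) *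
      (gt (a - 2) a (etaF lam F) * gt (a - 2) a (muF lam F)) :=
    h1.trans (Nat.mul_le_mul_left _ (h3'.trans h5))
  set g : ℝ := (gt (a - 2) a (etaF lam F) : ℝ) with hg
  set g' : ℝ := (gt (a - 2) N (etaF lam F) : ℝ) with hg'
  set Cc : ℝ := (((∑ i, etaF lam F i) + N - 1).choose (N - 1) : ℝ) with hCc
  set q : ℝ := (plethMult b a a lam : ℝ) with hq
  set U : ℝ := (((h.choose P) ^ K : ℕ) : ℝ) with hU
  set T : ℝ := ((ex lam 0 : ℝ) + 1) ^ (a * 2) with hT
  have hUpos : 0 < U := by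
    rw [hU]
    exact_mod_cast pow_pos (Nat.choose_pos hPh) K
  have hgnn : 0 ≤ g := Nat.cast_nonneg _
  have hT0 : 0 ≤ T := by positivity
  have hqnn : 0 ≤ q := Nat.cast_nonneg _
  have h7 : (plethMult a b a lam : ℝ) ≤ T * (g * cost) := by
    have h8 : (plethMult a b a lam : ℝ) ≤ (((ex lam 0 + 1) ^ (2 * a) *
      (gt (a - 2) a (etaF lam F) * gt (a - 2) a (muF lam F)) : ℕ) : ℝ) := by exact_mod_cast h6
    rw [mul_comm 2 a] at h8
    push_cast at h8
    refine h8.trans ?_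
    rw [← hT, ← hg]
    gcongr
  have h8 : U * g' ≤ Cc * q := by
    rw [hU, hg', hCc, hq]
    exact_mod_cast hC
  have h9 : g * G ^ (N - a) ≤ g' := by
    refine le_trans ?_ h4
    exact mul_le_mul_of_nonneg_left (pow_le_pow_left₀ hG0.le hG _) hgnn
  have h10 : (plethMult a b a lam : ℝ) * (U * G ^ (N - a)) ≤ q * (U * G ^ (N - a)) := by
    calc (plethMult a b a lam : ℝ) * (U * G ^ (N - a))
        ≤ (T * (g * cost)) * (U * G ^ (N - a)) := by gcongr
      _ = (T * cost) * (U * (g * G ^ (N - a))) := by ring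
      _ ≤ (T * cost) * (U * g') := by gcongr
      _ ≤ (T * cost) * (Cc * q) := by gcongr
      _ = (T * cost * Cc) * q := by ring
      _ ≤ (U * G ^ (N - a)) * q := by gcongr
      _ = q * (U * G ^ (N - a)) := by ring
  have h11 : (plethMult a b a lam : ℝ) ≤ q := le_of_mul_le_mul_right h10 (by positivity)
  rw [hq] at h11
  exact_mod_cast h11

end Vale.Agent.P181.H12
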