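import Vale.Agent.P181.Z.H592.Real
import Vale.Agent.P181.Z.H463.Ideal

/-!
# P181, sprint [Z]: the kernel of the Foulkes-Howe map in the ring of letters

`psi n a : A n → ℂ[y_(t,i)]` sends the letter `X v` to the full polarization of the monomial `v`
at `a` vectors (in Ryser's form).  Its kernel `IK n a` is stable under the row operators, and the
highest weight vectors of the kernel of the Foulkes-Howe map are those of `IK n a`.
-/

set_option autoImplicit false

open scoped TensorProduct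

namespace Vale.Agent.P181.H12.KHI

open MvPolynomial Vale.Agent.P181 Vale.Agent.P181.H280 Vale.Agent.P181.H54
  Vale.Agent.P181.H530.Torus Vale.Agent.P181.T4 Vale.Agent.P181.FR Vale.Agent.P181.Z.H592
  Vale.Agent.P181.Z463

variable {n N : ℕ}

/-- The sum of the vectors in `S`. -/
noncomputable def Y {a : ℕ} (S : Finset (Fin a)) (i : Fin n) : MvPolynomial (Fin a × Fin n) ℂ :=
  ∑ t ∈ S, X (t, i)

/-- The polarization of the monomial `v`. -/
noncomputable def pol (a : ℕ) (v : Fin n → ℕ) : MvPolynomial (Fin a × Fin n) ℂ :=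
  ∑ S : Finset (Fin a), ((-1 : ℂ) ^ (Sᶜ).card) • ∏ i, Y S i ^ v i

/-- The algebra map. -/
noncomputable def psi (n a : ℕ) : A n →ₐ[ℂ] MvPolynomial (Fin a × Fin n) ℂ := aeval (pol a)

/-- The kernel, as an ideal. -/
noncomputable def IK (n a : ℕ) : Ideal (A n) := RingHom.ker (psi n a)

lemma mem_IK {a : ℕ} {f : A n} : f ∈ IK n a ↔ psi n a f = 0 := RingHom.mem_ker

lemma psi_X {a : ℕ} (v : Fin n → ℕ) : psi n a (X v) = pol a v := aeval_X _ _

/-- The derivation of the substitution `y_i ↦ y_i + ε y_s`. -/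
noncomputable def DD (a : ℕ) (s i : Fin n) :
    Derivation ℂ (MvPolynomial (Fin a × Fin n) ℂ) (MvPolynomial (Fin a × Fin n) ℂ) :=
  mkDerivation ℂ (fun tk => if tk.2 = i then X (tk.1, s) else 0)

lemma DD_Y {a : ℕ} (s i : Fin n) (S : Finset (Fin a)) (k : Fin n) :
    DD a s i (Y S k) = if k = i then Y S s else 0 := by
  rw [Y, map_sum]
  have h : ∀ t ∈ S, DD a s i (X (t, k)) = if k = i then X (t, s) else 0 := fun t _ => by
    rw [DD, mkDerivation_X]
  rw [Finset.sum_congr rfl h]
  split_ifs with hk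
  · rfl
  · exact Finset.sum_const_zero

lemma DD_prod {a : ℕ} (s i : Fin n) (S : Finset (Fin a)) (v : Fin n → ℕ) :
    DD a s i (∏ k, Y S k ^ v k) = (v i : ℂ) • ∏ k, Y S k ^ (mvL s i v k) := by
  classical
  rw [Vale.Agent.P181.Z.H592.deriv_prod, Finset.sum_eq_single i]
  · rw [Derivation.leibniz_pow, DD_Y, if_pos rfl]
    rcases Nat.eq_zero_or_pos (v i) with h0 | h0
    · rw [h0, Nat.cast_zero, zero_smul, zero_smul, mul_zero]
    · have h1 : ∏ k, Y S k ^ (mvL s i v k) =
          (∏ k, Y S k ^ (v k - if k = i then 1 else 0)) * Y S s := by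
        have h2 : ∀ k ∈ (Finset.univ : Finset (Fin n)), Y S k ^ (mvL s i v k) =
            Y S k ^ (v k - if k = i then 1 else 0) * (if k = s then Y S k else 1) := by
          intro k _
          have h3 : mvL s i v k = (v k - if k = i then 1 else 0) + if k = s then 1 else 0 := by
            rw [mvL_apply]
            by_cases hk : k = i
            · subst hk
              rw [if_pos rfl]
              omega
            · rw [if_neg hk]
              omega
          rw [h3, pow_add]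
          congr 1
          split_ifs
          · rw [pow_one]
          · rw [pow_zero]
        rw [Finset.prod_congr rfl h2, Finset.prod_mul_distrib, Finset.prod_ite_eq' Finset.univ s,
          if_pos (Finset.mem_univ s)]
      rw [h1, ← Finset.mul_prod_erase Finset.univ _ (Finset.mem_univ i), if_pos rfl]
      have h4 : ∏ k ∈ Finset.univ.erase i, Y S k ^ (v k - if k = i then 1 else 0) =
          ∏ k ∈ Finset.univ.erase i, Y S k ^ v k := by
        refine Finset.prod_congr rfl fun k hk => ?_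
        rw [if_neg (Finset.ne_of_mem_erase hk), Nat.sub_zero]
      rw [h4, Nat.cast_smul_eq_nsmul, mul_smul_comm, smul_eq_mul]
      congr 1
      ring
  · intro k _ hk
    rw [Derivation.leibniz_pow, DD_Y, if_neg hk, smul_zero, smul_zero, mul_zero]
  · intro h
    exact absurd (Finset.mem_univ i) h

lemma DD_pol {a : ℕ} (s i : Fin n) (v : Fin n → ℕ) :
    DD a s i (pol a v) = psi n a (E s i (X v)) := by
  rw [E_X, map_smul, psi_X, pol, pol, map_sum, Finset.smul_sum]
  refine Finset.sum_congr rfl fun S _ => ?_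
  rw [Derivation.map_smul, DD_prod, smul_comm]

/-- `psi` intertwines the row operators. -/
theorem psi_E {a : ℕ} (s i : Fin n) (f : A n) :
    psi n a (E s i f) = DD a s i (psi n a f) := by
  induction f using MvPolynomial.induction_on with
  | C c =>
    have h1 : E s i (C c) = 0 := by
      rw [← algebraMap_eq, Derivation.map_algebraMap]
    have h2 : psi n a (C c) = algebraMap ℂ _ c := by
      rw [psi, aeval_C]
    rw [h1, h2, Derivation.map_algebraMap, map_zero]
  | add f g hf hg => rw [map_add, map_add, hf, hg, map_add, map_add]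
  | mul_X f v hf =>
    rw [Derivation.leibniz, map_mul, Derivation.leibniz, map_add, smul_eq_mul, smul_eq_mul,
      map_mul, map_mul, hf, smul_eq_mul, smul_eq_mul, psi_X, ← DD_pol]

/-- The ideal is stable under the row operators. -/
theorem E_mem_IK {a : ℕ} (s i : Fin n) {f : A n} (hf : f ∈ IK n a) : E s i f ∈ IK n a := by
  rw [mem_IK, psi_E, mem_IK.1 hf, map_zero]

/-! ### Polarization of the functionals -/

/-- a product of linear forms as a combination of powers. -/
lemma symEval_eq_sum {V : Type} [AddCommGroup V] [Module ℂ V] (a : ℕ)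
    (ξ : Fin a → Module.Dual ℂ V) :
    (symEval ξ : (Sym[ℂ]^a V) →ₗ[ℂ] ℂ) =
      ∑ S : Finset (Fin a), ((-1 : ℂ) ^ (Sᶜ).card) • evalPow a (∑ t ∈ S, ξ t) := by
  classical
  apply sym_hom_ext
  intro w
  rw [symEval_tprod, LinearMap.sum_apply]
  have h1 := ryser_prod (V := Module.Dual ℂ V) ξ (fun j => Module.Dual.eval ℂ V (w j))
  rw [ryser_apply] at h1
  have h2 : ∀ S ∈ (Finset.univ : Finset (Finset (Fin a))),
      (((-1 : ℂ) ^ (Sᶜ).card) • evalPow a (∑ t ∈ S, ξ t)) (SymmetricPower.tprod ℂ w) =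
      (-1 : ℂ) ^ (Sᶜ).card * (∏ j, (fun v : Module.Dual ℂ V => Module.Dual.eval ℂ V (w j) v))
        (∑ i ∈ S, ξ i) := by
    intro S _
    rw [LinearMap.smul_apply, evalPow_tprod, smul_eq_mul, Finset.prod_apply]
    rfl
  rw [Finset.sum_congr rfl h2, h1]
  rw [← Equiv.sum_comp (Equiv.inv (Equiv.Perm (Fin a)))]
  refine Finset.sum_congr rfl fun e _ => ?_
  rw [← Equiv.prod_comp e]
  refine Finset.prod_congr rfl fun j _ => ?_
  have h3 : (Equiv.inv (Equiv.Perm (Fin a))) e (e j) = j := e.symm_apply_apply j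
  rw [h3]
  rfl

lemma dotF_sum {a m : ℕ} (S : Finset (Fin a)) (ξ : Fin a → Fin m → ℂ) :
    ∑ t ∈ S, dotF (ξ t) = dotF (∑ t ∈ S, ξ t) := by
  apply LinearMap.ext
  intro v
  rw [LinearMap.sum_apply, dotF_apply, sum_dotProduct]
  rfl

/-- the value at a product of linear forms in terms of the values at points. -/
lemma symEval_ptvL {a : ℕ} (x : Pleth N a n) (ξ : Fin a → Fin n → ℂ) :
    symEval (fun _ : Fin N => symEval (fun t => dotF (ξ t)))
        (x : Sym[ℂ]^N (Sym[ℂ]^a (Fin n → ℂ))) =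
      ∑ T : Fin N → Finset (Fin a), (∏ j, (-1 : ℂ) ^ ((T j)ᶜ).card) *
        ptvL N a n x (fun j => ∑ t ∈ T j, ξ t) := by
  classical
  have h0 : (symEval (fun t => dotF (ξ t)) : (Sym[ℂ]^a (Fin n → ℂ)) →ₗ[ℂ] ℂ) =
      ∑ S : Finset (Fin a), ((-1 : ℂ) ^ (Sᶜ).card) • evalPow a (dotF (∑ t ∈ S, ξ t)) := by
    rw [symEval_eq_sum]
    exact Finset.sum_congr rfl fun S _ => by rw [dotF_sum]
  rw [h0]
  have h1 := MultilinearMap.map_sum (symEvalM (x : Sym[ℂ]^N (Sym[ℂ]^a (Fin n → ℂ))))
    (fun (_ : Fin N) (S : Finset (Fin a)) => ((-1 : ℂ) ^ (Sᶜ).card) •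
      (evalPow a (dotF (∑ t ∈ S, ξ t)) : Module.Dual ℂ (Sym[ℂ]^a (Fin n → ℂ))))
  refine h1.trans (Finset.sum_congr rfl fun T _ => ?_)
  rw [MultilinearMap.map_smul_univ, smul_eq_mul]
  rfl

/-- the value of `psi (lm f)` in terms of the values at points. -/
lemma eval_psi_lm {a : ℕ} (f : MvPolynomial (Fin n × Fin N) ℂ) (ξ : Fin a → Fin n → ℂ) :
    eval (fun tk : Fin a × Fin n => ξ tk.1 tk.2) (psi n a (lm n N f)) =
      ∑ T : Fin N → Finset (Fin a), (∏ j, (-1 : ℂ) ^ ((T j)ᶜ).card) *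
        evalP N n f (fun j => ∑ t ∈ T j, ξ t) := by
  classical
  let ev : MvPolynomial (Fin a × Fin n) ℂ →ₗ[ℂ] ℂ :=
    (aeval (fun tk : Fin a × Fin n => ξ tk.1 tk.2) :
      MvPolynomial (Fin a × Fin n) ℂ →ₐ[ℂ] ℂ).toLinearMap
  let L1 : MvPolynomial (Fin n × Fin N) ℂ →ₗ[ℂ] ℂ := ev ∘ₗ (psi n a).toLinearMap ∘ₗ lm n N
  let L2 : MvPolynomial (Fin n × Fin N) ℂ →ₗ[ℂ] ℂ :=
    ∑ T : Fin N → Finset (Fin a), (∏ j, (-1 : ℂ) ^ ((T j)ᶜ).card) •
      ((LinearMap.proj (fun j => ∑ t ∈ T j, ξ t) : Fn N n →ₗ[ℂ] ℂ) ∘ₗ evalP N n)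
  have hev : ∀ p, ev p = eval (fun tk : Fin a × Fin n => ξ tk.1 tk.2) p := fun p => by
    change aeval _ p = _
    rw [aeval_eq_eval]
  have hL : L1 = L2 := by
    apply (basisMonomials (Fin n × Fin N) ℂ).ext
    intro m
    rw [coe_basisMonomials]
    change ev (psi n a (lm n N (monomial m 1))) = _
    rw [hev, lm_monomial, lmon, map_prod, map_prod, LinearMap.sum_apply]
    have h1 : ∀ T ∈ (Finset.univ : Finset (Fin N → Finset (Fin a))),
        ((∏ j, (-1 : ℂ) ^ ((T j)ᶜ).card) •
          ((LinearMap.proj (fun j => ∑ t ∈ T j, ξ t) : Fn N n →ₗ[ℂ] ℂ) ∘ₗ evalP N n))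
          (monomial m 1) =
        ∏ j, ((-1 : ℂ) ^ ((T j)ᶜ).card * ∏ i, (∑ t ∈ T j, ξ t) i ^ m (i, j)) := by
      intro T _
      rw [LinearMap.smul_apply, LinearMap.comp_apply, LinearMap.proj_apply, evalP_monomial,
        one_smul, smul_eq_mul, Finset.prod_mul_distrib]
      congr 1
      refine Finset.prod_congr rfl fun j _ => ?_
      rw [map_prod]
      exact Finset.prod_congr rfl fun i _ => by rw [map_pow, eval_X]
    have h5 := Finset.prod_univ_sum (fun _ : Fin N => (Finset.univ : Finset (Finset (Fin a))))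
      (fun j S => (-1 : ℂ) ^ (Sᶜ).card * ∏ i, (∑ t ∈ S, ξ t) i ^ m (i, j))
    rw [Fintype.piFinset_univ] at h5
    rw [Finset.sum_congr rfl h1, ← h5]
    refine Finset.prod_congr rfl fun j _ => ?_
    rw [psi_X, pol, map_sum]
    refine Finset.sum_congr rfl fun S _ => ?_
    rw [smul_eval, map_prod]
    congr 1
    refine Finset.prod_congr rfl fun i _ => ?_
    rw [map_pow, Y, map_sum]
    congr 1
    rw [Finset.sum_apply]
    exact Finset.sum_congr rfl fun t _ => eval_X _
  have h2 := LinearMap.congr_fun hL f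
  have h3 : L1 f = eval (fun tk : Fin a × Fin n => ξ tk.1 tk.2) (psi n a (lm n N f)) := hev _
  rw [← h3, h2, LinearMap.sum_apply]
  rfl

/-- **The kernel of the Foulkes-Howe map in the ring of letters.** -/
theorem foulkesHowe_iff {a : ℕ} (x : Pleth N a n) (f : MvPolynomial (Fin n × Fin N) ℂ)
    (hf : ptvL N a n x = evalP N n f) :
    foulkesHowe N a (Fin n → ℂ) x = 0 ↔ lm n N f ∈ IK n a := by
  have key : ∀ ξ : Fin a → Fin n → ℂ,
      symEval (fun _ : Fin N => symEval (fun t => dotF (ξ t)))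
        (x : Sym[ℂ]^N (Sym[ℂ]^a (Fin n → ℂ))) =
      eval (fun tk : Fin a × Fin n => ξ tk.1 tk.2) (psi n a (lm n N f)) := by
    intro ξ
    rw [symEval_ptvL, eval_psi_lm, hf]
  refine (foulkesHowe_eq_zero_iff (V := Fin n → ℂ) N a x).trans ?_
  rw [mem_IK]
  constructor
  · intro h
    apply MvPolynomial.funext
    intro y
    rw [map_zero]
    have h1 := key (fun t i => y (t, i))
    rw [h (fun t => dotF (fun i => y (t, i)))] at h1
    exact h1.symm
  · intro h ξ
    choose p hp using fun t => exists_dotF (ξ t)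
    have hξ : ξ = fun t => dotF (p t) := funext hp
    rw [hξ, key, h, map_zero]

/-- **The highest weight vectors of the kernel of the Foulkes-Howe map are those of the ideal
`IK n a`.** -/
theorem finrank_KH_eq (a : ℕ) (theta : Fin n → ℕ) :
    Module.finrank ℂ (KH N a n theta) =
      Module.finrank ℂ (HA n N a theta ⊓ (IK n a).restrictScalars ℂ : Submodule ℂ (A n)) := by
  rw [← finrank_HA_inf]
  have h : (KH N a n theta).map (ptvL N a n) =
      (W n N a (Up n) theta ⊓ ((IK n a).restrictScalars ℂ).comap (lm n N) :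
        Submodule ℂ (MvPolynomial (Fin n × Fin N) ℂ)).map (evalP N n) := by
    apply le_antisymm
    · rintro _ ⟨x, hx, rfl⟩
      obtain ⟨f, hf, hfx⟩ := exists_evalP (ptvL_mem x)
      refine ⟨f, ⟨mem_W_Up.2 ⟨fun τ => ?_, ?_, hf⟩, ?_⟩, hfx⟩
      · apply evalP_inj
        funext p
        rw [evalP_ren, hfx]
        exact ptvL_perm x τ p
      · apply mem_HW_iff_HWF.2
        rw [hfx]
        exact (mem_hwSpace_iff x).1 hx.2
      · exact (foulkesHowe_iff x f hfx.symm).1 (LinearMap.mem_ker.1 hx.1)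
    · rintro _ ⟨f, ⟨hf, hfI⟩, rfl⟩
      obtain ⟨h1, h2, h3⟩ := mem_W_Up.1 hf
      obtain ⟨x, hx⟩ := exists_ptvL (evalP N n f) (evalP_mem h3) (fun σ p => by
        rw [← evalP_ren, h1])
      refine ⟨x, ⟨LinearMap.mem_ker.2 ((foulkesHowe_iff x f hx).2 hfI), ?_⟩, hx⟩
      apply (mem_hwSpace_iff x).2
      rw [hx]
      exact HWF_evalP h2
  have e1 := LinearEquiv.finrank_eq (Submodule.equivMapOfInjective (evalP N n)
    (evalP_injective N n) (W n N a (Up n) theta ⊓ ((IK n a).restrictScalars ℂ).comap (lm n N)))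
  have e2 := LinearEquiv.finrank_eq (Submodule.equivMapOfInjective (ptvL N a n)
    (fun _ _ h => ptvL_inj h) (KH N a n theta))
  rw [e1, e2, h]

end Vale.Agent.P181.H12.KHI
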