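import Vale.Agent.P181.H12.Short

set_option autoImplicit false

/-!
# P181: the long case
-/

open scoped Classical

namespace Vale.Agent.P181.H12

open Finset Filter Vale.Agent.P181.T4 Vale.Agent.P181.H463 Vale.Agent.P181.H280

lemma exp_half_le {x : ℝ} (h0 : 0 ≤ x) (h1 : x ≤ 1) : Real.exp (x / 2) ≤ 1 + x := by
  have h2 := Real.add_one_le_exp (-(x / 2))
  have h3 : (0 : ℝ) < 1 - x / 2 := by linarith
  have h4 : Real.exp (x / 2) * Real.exp (-(x / 2)) = 1 := by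
    rw [← Real.exp_add]; simp
  have h5 := Real.exp_pos (x / 2)
  nlinarith

/-- Growth of the product. -/
lemma growth_long {n N L y S : ℕ} {E : ℕ → ℕ} (hE : Antitone E) (hN : 0 < N) (hL : L ≤ n)
    {η : Fin n → ℕ} (hη : ∀ i : Fin n, η i = E i - y)
    (hS : S + ∑ i : Fin n, min y (E i) ≤ ∑ i : Fin n, min (E i) (E L)) {E0 : ℝ}
    (h1 : E0 ≤ (L : ℝ) / 2) (h2 : E0 ≤ (S : ℝ) / (2 * N)) :
    Real.exp E0 ≤ ∏ i, (1 + (η i : ℝ) / N) := by
  have hN' : (0 : ℝ) < N := by exact_mod_cast hN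
  by_cases hM : N ≤ E L - y
  · -- many long rows
    have h3 : ∀ i : Fin n, (if (i : ℕ) < L then (2 : ℝ) else 1) ≤ 1 + (η i : ℝ) / N := by
      intro i
      split_ifs with hi
      · have h4 : N ≤ η i := by
          rw [hη i]
          have := hE (show (i : ℕ) ≤ L by omega)
          omega
        have h5 : (1 : ℝ) ≤ (η i : ℝ) / N := by
          rw [le_div_iff₀ hN', one_mul]
          exact_mod_cast h4
        linarith
      · have : (0 : ℝ) ≤ (η i : ℝ) / N := by positivity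
        linarith
    have h4 : ∏ i : Fin n, (if (i : ℕ) < L then (2 : ℝ) else 1) = 2 ^ L := by
      rw [Finset.prod_ite]
      simp only [Finset.prod_const, one_pow, mul_one]
      congr 1
      exact card_fin_lt hL
    calc Real.exp E0 ≤ Real.exp ((L : ℝ) / 2) := Real.exp_le_exp.2 h1
      _ = Real.exp (1 / 2) ^ L := by
        rw [← Real.exp_nat_mul]
        congr 1
        ring
      _ ≤ 2 ^ L := by
        refine pow_le_pow_left₀ (Real.exp_pos _).le ?_ _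
        have := exp_half_le (x := 1) (by norm_num) le_rfl
        linarith
      _ = ∏ i : Fin n, (if (i : ℕ) < L then (2 : ℝ) else 1) := h4.symm
      _ ≤ _ := Finset.prod_le_prod (fun i _ => by split_ifs <;> norm_num) fun i _ => h3 i
  · push Not at hM
    set M : Fin n → ℕ := fun i => min (E i) (E L) - y with hMdef
    have hMS : S ≤ ∑ i, M i := by
      have h3 : ∑ i : Fin n, min (E i) (E L) ≤ ∑ i, M i + ∑ i : Fin n, min y (E i) := by
        rw [← Finset.sum_add_distrib]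
        refine Finset.sum_le_sum fun i _ => ?_
        simp only [hMdef]
        omega
      omega
    have h3 : ∀ i : Fin n, Real.exp ((M i : ℝ) / N / 2) ≤ 1 + (η i : ℝ) / N := by
      intro i
      have h4 : M i ≤ N := by
        simp only [hMdef]
        omega
      have h5 : M i ≤ η i := by
        rw [hη i]
        simp only [hMdef]
        omega
      have h6 : (M i : ℝ) / N ≤ 1 := by
        rw [div_le_one hN']
        exact_mod_cast h4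
      have h7 : (M i : ℝ) / N ≤ (η i : ℝ) / N := by
        have : (M i : ℝ) ≤ η i := by exact_mod_cast h5
        gcongr
      have h8 := exp_half_le (x := (M i : ℝ) / N) (by positivity) h6
      linarith
    calc Real.exp E0 ≤ Real.exp ((S : ℝ) / (2 * N)) := Real.exp_le_exp.2 h2
      _ ≤ Real.exp (∑ i, (M i : ℝ) / N / 2) := by
        refine Real.exp_le_exp.2 ?_
        have h4 : ∑ i, (M i : ℝ) / N / 2 = ((∑ i, M i : ℕ) : ℝ) / (2 * N) := by
          push_cast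
          rw [Finset.sum_div]
          refine Finset.sum_congr rfl fun i _ => ?_
          field_simp
        rw [h4]
        have : (S : ℝ) ≤ ((∑ i, M i : ℕ) : ℝ) := by exact_mod_cast hMS
        gcongr
      _ = ∏ i, Real.exp ((M i : ℝ) / N / 2) := Real.exp_sum _ _
      _ ≤ _ := Finset.prod_le_prod (fun i _ => (Real.exp_pos _).le) fun i _ => h3 i

/-- numbers of the long case -/
lemma long_num {a N B D' K L0 : ℕ} {C : ℝ} (ha : 3 ≤ a) (hN : 4 * a ≤ N) (hD : 8 * D' ≤ a * N)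
    (hB : 2 * B ≤ 3 * (N * K) + 6 * N) (hK : 5000 ≤ K)
    (h : ((L0 : ℝ) + 1) ^ (a * 2) * C ≤ Real.exp (2 * (N : ℝ)) * (1 + (D' : ℝ) / N) ^ (N - a)) :
    ((L0 : ℝ) + 1) ^ (a * 2) * (a : ℝ) ^ B * C ≤
      Real.exp (2 * (N : ℝ)) * Real.exp (8 * K * Real.log a) ^ (N - a) := by
  have ha0 : (0 : ℝ) < a := by exact_mod_cast (by omega : 0 < a)
  have ha3 : (3 : ℝ) ≤ a := by exact_mod_cast ha
  have hN0 : (0 : ℝ) < N := by exact_mod_cast (by omega : 0 < N)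
  have h1 : 1 + (D' : ℝ) / N ≤ a := by
    have h2 : (D' : ℝ) / N ≤ a / 8 := by
      rw [div_le_div_iff₀ hN0 (by norm_num)]
      have : (8 : ℝ) * D' ≤ a * N := by exact_mod_cast hD
      linarith
    linarith
  have h2 : (1 + (D' : ℝ) / N) ^ (N - a) ≤ (a : ℝ) ^ (N - a) :=
    pow_le_pow_left₀ (by positivity) h1 _
  have h3 : Real.exp (8 * K * Real.log a) = (a : ℝ) ^ (8 * K) := by
    rw [← Real.exp_log (pow_pos ha0 (8 * K)), Real.log_pow]
    push_cast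
    rfl
  have h4 : (a : ℝ) ^ B * (a : ℝ) ^ (N - a) ≤ ((a : ℝ) ^ (8 * K)) ^ (N - a) := by
    rw [← pow_add, ← pow_mul]
    refine pow_le_pow_right₀ (by linarith) ?_
    have h5 : N ≤ 2 * (N - a) := by omega
    have h6 : N * K ≤ 2 * (N - a) * K := Nat.mul_le_mul_right _ h5
    have h7 : N * 5000 ≤ N * K := Nat.mul_le_mul_left _ hK
    have h8 : 8 * K * (N - a) = 4 * (2 * (N - a) * K) := by ring
    omega
  calc ((L0 : ℝ) + 1) ^ (a * 2) * (a : ℝ) ^ B * C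
      = (((L0 : ℝ) + 1) ^ (a * 2) * C) * (a : ℝ) ^ B := by ring
    _ ≤ (Real.exp (2 * (N : ℝ)) * (1 + (D' : ℝ) / N) ^ (N - a)) * (a : ℝ) ^ B := by gcongr
    _ ≤ (Real.exp (2 * (N : ℝ)) * (a : ℝ) ^ (N - a)) * (a : ℝ) ^ B := by gcongr
    _ = Real.exp (2 * (N : ℝ)) * ((a : ℝ) ^ B * (a : ℝ) ^ (N - a)) := by ring
    _ ≤ Real.exp (2 * (N : ℝ)) * ((a : ℝ) ^ (8 * K)) ^ (N - a) := by gcongr
    _ = _ := by rw [h3]

lemma long_E0 {a K N D L : ℕ} {Y : ℝ} (hY : 20000 ≤ Y) (ha : 1 ≤ a) (hK1 : (K : ℝ) ≤ 1001 * Y ^ 2)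
    (hlog : Real.log a ≤ Y) (hL : Y ^ 4 - 3 ≤ L) (hN0 : 0 < N)
    (hN2 : (N : ℝ) ≤ 3 * (a * Y ^ 2)) (hD : (a : ℝ) * Y ^ 32 ≤ D) :
    8 * K * Real.log a ≤ (L : ℝ) / 2 ∧ 8 * K * Real.log a ≤ ((D / 4 : ℕ) : ℝ) / (2 * N) := by
  have ha1 : (1 : ℝ) ≤ a := by exact_mod_cast ha
  have hY0 : (0 : ℝ) < Y := by linarith
  have hN0' : (0 : ℝ) < N := by exact_mod_cast hN0
  have hlog0 : 0 ≤ Real.log a := Real.log_nonneg ha1
  have hY3 : (1 : ℝ) ≤ Y ^ 3 := one_le_pow₀ (by linarith)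
  have h1 : 8 * K * Real.log a ≤ 8008 * Y ^ 3 := by
    calc 8 * K * Real.log a ≤ 8 * (1001 * Y ^ 2) * Y := by gcongr
      _ = 8008 * Y ^ 3 := by ring
  have h2 : 8008 * Y ^ 3 ≤ (Y ^ 4 - 3) / 2 := by
    have : Y ^ 4 = Y * Y ^ 3 := by ring
    rw [this]
    nlinarith
  refine ⟨by linarith, ?_⟩
  rw [le_div_iff₀ (by positivity)]
  have h3 : ((D / 4 : ℕ) : ℝ) ≥ (D : ℝ) / 4 - 1 := by
    have h4 : D ≤ 4 * (D / 4) + 3 := by omega
    have h5 : (D : ℝ) ≤ 4 * ((D / 4 : ℕ) : ℝ) + 3 := by exact_mod_cast h4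
    linarith
  have h4 : 8 * K * Real.log a * (2 * N) ≤ 8008 * Y ^ 3 * (2 * (3 * (a * Y ^ 2))) := by
    have h5 : (0 : ℝ) ≤ 8 * K * Real.log a := by positivity
    gcongr
  have h6 : 8008 * Y ^ 3 * (2 * (3 * (a * Y ^ 2))) = 48048 * (a * Y ^ 5) := by ring
  have h7 : (200000 : ℝ) * (a * Y ^ 5) ≤ a * Y ^ 32 := by
    have h8 : Y ^ 32 = Y ^ 5 * (Y ^ 2 * Y ^ 25) := by ring
    have h9 : (1 : ℝ) ≤ Y ^ 25 := one_le_pow₀ (by linarith)
    have h10 : (200000 : ℝ) ≤ Y ^ 2 * Y ^ 25 := by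
      have : (200000 : ℝ) ≤ Y ^ 2 := by nlinarith
      nlinarith
    have h11 : (200000 : ℝ) * Y ^ 5 ≤ Y ^ 32 := by
      rw [h8]
      have : (0 : ℝ) ≤ Y ^ 5 := by positivity
      nlinarith
    nlinarith
  have h8 : (1 : ℝ) ≤ a * Y ^ 5 := by
    have : (1 : ℝ) ≤ Y ^ 5 := one_le_pow₀ (by linarith)
    nlinarith
  linarith

lemma long_B {a B D Bt : ℕ} {Y : ℝ} (hY : 20000 ≤ Y) (hBt : (Bt : ℝ) ≤ 6100 * (a * Y ^ 4))
    (hB : B < Bt + a) (hD : (a : ℝ) * Y ^ 32 ≤ D) : 4 * B ≤ D ∧ Bt ≤ D := by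
  have ha0 : (0 : ℝ) ≤ a := Nat.cast_nonneg _
  have h1 : (a : ℝ) ≤ a * Y ^ 4 := by
    have : (1 : ℝ) ≤ Y ^ 4 := one_le_pow₀ (by linarith)
    nlinarith
  have h2 : (100000 : ℝ) * (a * Y ^ 4) ≤ a * Y ^ 32 := by
    have h8 : Y ^ 32 = Y ^ 4 * (Y ^ 2 * Y ^ 26) := by ring
    have h9 : (1 : ℝ) ≤ Y ^ 26 := one_le_pow₀ (by linarith)
    have h10 : (100000 : ℝ) ≤ Y ^ 2 * Y ^ 26 := by
      have : (100000 : ℝ) ≤ Y ^ 2 := by nlinarith
      nlinarith
    have h11 : (100000 : ℝ) * Y ^ 4 ≤ Y ^ 32 := by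
      rw [h8]
      have : (0 : ℝ) ≤ Y ^ 4 := by positivity
      nlinarith
    nlinarith
  have h3 : (B : ℝ) ≤ Bt + a := by exact_mod_cast hB.le
  have h0 : (0 : ℝ) ≤ a * Y ^ 4 := by positivity
  constructor
  · have : (4 : ℝ) * B ≤ D := by linarith
    exact_mod_cast this
  · have : (Bt : ℝ) ≤ D := by linarith
    exact_mod_cast this

/-- the long case with the numbers fixed -/
theorem long_core {a b K P L : ℕ} {Y : ℝ} (lam : Fin a → ℕ) (hlam : Antitone lam)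
    (hsum : ∑ i, lam i = a * b) (hb : b ≤ a ^ 2) (hY : 20000 ≤ Y)
    (hl1' : (a : ℝ) ^ 2 * Y ^ 8 ≤ ex lam 1)
    (hDl' : (a : ℝ) * Y ^ 32 ≤ ((∑ i, low 2 lam i : ℕ) : ℝ)) (hDu : ∑ i, low 2 lam i ≤ a ^ 2)
    (hN1 : (a : ℝ) * Y ^ 2 ≤ ((K * P * 2 : ℕ) : ℝ)) (hN2 : ((K * P * 2 : ℕ) : ℝ) ≤ 3 * (a * Y ^ 2))
    (hK1 : (K : ℝ) ≤ 1001 * Y ^ 2)
    (hK2 : 5000 ≤ K) (hP1 : a ≤ 2000 * P) (hP2 : 1000 * P ≤ a) (hP0 : 0 < P) (ha100 : 100 ≤ a)
    (hN4 : 4 * a ≤ K * P * 2) (hK3 : 30 * K + 40 ≤ a)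
    (hBt : (((3 * (P * (K * (K - 1))) + 2 * (K * P * 2) : ℕ)) : ℝ) ≤ 6100 * (a * Y ^ 4))
    (hlogY : Real.log a ≤ Y) (hLY : Y ^ 4 - 3 ≤ L) (hLa : L + 2 ≤ a)
    (h7 : ∀ D' ≤ a ^ 3, ((ex lam 0 : ℝ) + 1) ^ (a * 2) *
      ((D' + K * P * 2 - 1).choose (K * P * 2 - 1) : ℝ) ≤
        Real.exp ((1 + 1) * ((K * P * 2 : ℕ) : ℝ)) *
          (1 + (D' : ℝ) / ((K * P * 2 : ℕ) : ℝ)) ^ (K * P * 2 - a))
    (hlg : ∑ i, low 2 lam i ≤ 2 * ∑ i : Fin (a - 2), min (ex lam (2 + i)) (ex lam (2 + L))) :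
    plethMult a b a lam ≤ plethMult b a a lam := by
  have ha1 : (1 : ℝ) ≤ a := by exact_mod_cast (by omega : 1 ≤ a)
  have ha0 : (0 : ℝ) < a := by linarith
  have hY20 : 20 ≤ Y := by linarith
  have hcolx : ∀ c, 0 ≤ c → colLen a (ex lam) c - 2 ≤ a := by
    intro c _
    have := colLen_le a (ex lam) c
    omega
  set Bt := 3 * (P * (K * (K - 1))) + 2 * (K * P * 2) with hBtdef
  set D := ∑ i, low 2 lam i with hDdef
  have hA : Bt ≤ ∑ i : Fin (a - 2), (ex lam (2 + i) - 0) := by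
    have h1 : ∑ i : Fin (a - 2), (ex lam (2 + i) - 0) = D := rfl
    rw [h1]
    exact (long_B (B := 0) hY hBt (by omega) hDl').2
  obtain ⟨y, hy1, hy2⟩ := exists_y hlam hcolx (by omega) hA
  have hN0 : 0 < K * P * 2 := by omega
  set F := FI lam 0 y with hF
  set B := ∑ c ∈ F, (colLen a (ex lam) c - 2) with hB
  have hBD := (long_B (B := B) hY hBt hy2 hDl').1
  set D' := ∑ i, etaF lam F i with hD'
  have hmu : ∀ i : Fin (a - 2), muF lam F i = min y (ex lam (2 + i)) := by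
    intro i
    rw [hF, mu_FI hlam, Nat.sub_zero]
  have hmuB : ∑ i : Fin (a - 2), min y (ex lam (2 + i)) = B := by
    rw [hB, ← sum_mu]
    exact Finset.sum_congr rfl fun i _ => (hmu i).symm
  have hDD : D' + B = D := by
    rw [hB, ← sum_mu]
    exact sum_eta_mu hlam F
  have hD3 : D' ≤ a ^ 3 := by
    have h2 : a ^ 2 ≤ a ^ 3 := Nat.pow_le_pow_right (by omega) (by omega)
    omega
  have hnum := h7 D' hD3
  have hE := long_E0 hY (by omega) hK1 hlogY hLY hN0 hN2 hDl'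
  have haN : 8 * a ≤ K * P * 2 := by
    have h1 : (8 : ℝ) * a ≤ ((K * P * 2 : ℕ) : ℝ) := by
      refine le_trans ?_ hN1
      have : (8 : ℝ) ≤ Y ^ 2 := by nlinarith
      nlinarith
    exact_mod_cast h1
  have hD8 : 8 * D' ≤ a * (K * P * 2) := by
    calc 8 * D' ≤ 8 * a ^ 2 := by omega
      _ = a * (8 * a) := by ring
      _ ≤ a * (K * P * 2) := Nat.mul_le_mul_left _ haN
  refine compare2 (K := K) (P := P) (x := 0) (y := y) (nmax := a) lam hlam hsum hb hY20 hl1' hDu hN1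
    hN2 hK2 hP1 hP2 hP0 ha100 hN4 hK3 hcolx le_rfl hy1 hy2
    ((a : ℝ) ^ B) (Real.exp (8 * K * Real.log a)) (by positivity) ?_
    (Real.exp_pos _) ?_ ?_
  · have h1 := gt_le_pow (n := a - 2) a (muF lam F)
    have h2 : ∑ i, muF lam F i = B := sum_mu F
    rw [h2] at h1
    exact_mod_cast h1
  · refine growth_long (n := a - 2) (N := K * P * 2) (L := L) (y := y) (S := D / 4)
      (E := fun i => ex lam (2 + i)) (fun i j hij => ex_anti hlam (by omega)) hN0 (by omega) ?_ ?_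
      hE.1 hE.2
    · intro i
      have h1 := eta_add_mu hlam F i
      rw [hmu i] at h1
      have h2 : low 2 lam i = ex lam (2 + i) := rfl
      rw [h2] at h1
      show etaF lam F i = ex lam (2 + i) - y
      omega
    · show D / 4 + ∑ i : Fin (a - 2), min y (ex lam (2 + i)) ≤
        ∑ i : Fin (a - 2), min (ex lam (2 + i)) (ex lam (2 + L))
      rw [hmuB]
      omega
  · have h1 : ((2 : ℝ)) = 1 + 1 := by norm_num
    have h2 : 2 * B ≤ 3 * (K * P * 2 * K) + 6 * (K * P * 2) := by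
      have h3 : 3 * (P * (K * (K - 1))) ≤ 3 * (P * (K * K)) := by gcongr; omega
      have h4 : 3 * (K * P * 2 * K) = 2 * (3 * (P * (K * K))) := by ring
      omega
    refine long_num (K := K) (by omega) hN4 hD8 h2 hK2 ?_
    refine hnum.trans (le_of_eq ?_)
    norm_num

/-- the case of many boxes in long columns -/
theorem long (ε : ℝ) (hε : 0 < ε) (hε1 : ε ≤ 1) : ∀ᶠ a : ℕ in atTop, ∀ (b : ℕ) (lam : Fin a → ℕ),
    b ≤ a ^ 2 → Antitone lam → ∑ i, lam i = a * b → (a : ℝ) ^ (2 + ε) ≤ ex lam 1 →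
    (a : ℝ) ^ (1 + ε) ≤ ((∑ i, low 2 lam i : ℕ) : ℝ) → ∑ i, low 2 lam i ≤ a ^ 2 →
    ∑ i, low 2 lam i ≤ 2 * ∑ i : Fin (a - 2),
      min (ex lam (2 + i)) (ex lam (2 + (⌊(a : ℝ) ^ (ε / 8)⌋₊ - 2))) →
    plethMult a b a lam ≤ plethMult b a a lam := by
  have hlim : ∀ᶠ a : ℕ in atTop, (20000 : ℝ) ≤ (a : ℝ) ^ (ε / 32) := by
    have h1 : Tendsto (fun a : ℕ => (a : ℝ) ^ (ε / 32)) atTop atTop :=
      (tendsto_rpow_atTop (by positivity)).comp tendsto_natCast_atTop_atTop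
    exact h1.eventually_ge_atTop 20000
  filter_upwards [H403.num7 (ε / 32) 1 (by positivity) one_pos, hlim,
    H921.ev_log 1 (ε / 32) (by positivity)] with a h7 hY hlog b lam hb hlam
    hsum hl1 hDl hDu hlg
  obtain ⟨ha3, h7⟩ := h7
  have ha1 : (1 : ℝ) ≤ a := by exact_mod_cast (by omega : 1 ≤ a)
  have ha0 : (0 : ℝ) < a := by linarith
  set Y : ℝ := (a : ℝ) ^ (ε / 32) with hYdef
  have hY20 : 20 ≤ Y := by linarith
  have hYp : ∀ n : ℕ, Y ^ n = (a : ℝ) ^ (n * (ε / 32)) := by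
    intro n
    rw [hYdef, ← Real.rpow_natCast, ← Real.rpow_mul ha0.le]
    congr 1
    ring
  have hY32 : Y ^ 32 = (a : ℝ) ^ ε := by
    rw [hYp]
    congr 1
    push_cast
    ring
  have hY2 : Y ^ 2 = (a : ℝ) ^ (2 * (ε / 32)) := by
    rw [hYp]
    norm_num
  have hX : (a : ℝ) ^ (ε / 8) = Y ^ 4 := by
    rw [hYp]
    congr 1
    push_cast
    ring
  rw [hX] at hlg
  have haY32 : Y ^ 32 ≤ a := by
    rw [hY32]
    calc (a : ℝ) ^ ε ≤ (a : ℝ) ^ (1 : ℝ) := Real.rpow_le_rpow_of_exponent_le ha1 hε1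
      _ = a := Real.rpow_one _
  have hY1 : (1 : ℝ) ≤ Y := by linarith
  have haY : Y ^ 8 ≤ a := (pow_le_pow_right₀ hY1 (by norm_num)).trans haY32
  have hl1' : (a : ℝ) ^ 2 * Y ^ 8 ≤ ex lam 1 := by
    refine le_trans ?_ hl1
    rw [Real.rpow_add ha0, ← hY32]
    have h1 : (a : ℝ) ^ (2 : ℝ) = (a : ℝ) ^ 2 := by
      rw [← Real.rpow_natCast]; norm_num
    rw [h1]
    exact mul_le_mul_of_nonneg_left (pow_le_pow_right₀ hY1 (by norm_num)) (by positivity)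
  have hDl' : (a : ℝ) * Y ^ 32 ≤ ((∑ i, low 2 lam i : ℕ) : ℝ) := by
    rw [Real.rpow_add ha0, ← hY32, Real.rpow_one] at hDl
    exact hDl
  obtain ⟨K, P, hN1, hN2, hK1, hK2, hP1, hP2, hP0, ha100, hN4, hK3, hBt⟩ := params hY20 haY
  have hlogY : Real.log a ≤ Y := by
    have h1 : 1 ≤ Real.log a := by
      rw [Real.le_log_iff_exp_le ha0]
      have h2 := Real.exp_one_lt_d9
      have h3 : (100 : ℝ) ≤ a := by exact_mod_cast ha100
      linarith
    nlinarith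
  set L := ⌊Y ^ 4⌋₊ - 2 with hL
  have hfl : 20 ≤ ⌊Y ^ 4⌋₊ := Nat.le_floor (by
    have : Y ≤ Y ^ 4 := by
      calc Y = Y ^ 1 := by ring
        _ ≤ Y ^ 4 := pow_le_pow_right₀ hY1 (by norm_num)
    push_cast
    linarith)
  have hLY : Y ^ 4 - 3 ≤ L := by
    have h1 : L + 2 = ⌊Y ^ 4⌋₊ := by omega
    have h2 : Y ^ 4 < ⌊Y ^ 4⌋₊ + 1 := Nat.lt_floor_add_one _
    rw [← h1] at h2
    push_cast at h2
    linarith
  have hLa : L + 2 ≤ a := by
    have h1 : L + 2 = ⌊Y ^ 4⌋₊ := by omega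
    have h2 : ((L + 2 : ℕ) : ℝ) ≤ a := by
      rw [h1]
      refine (Nat.floor_le (by positivity)).trans ?_
      exact (pow_le_pow_right₀ hY1 (by norm_num)).trans haY32
    exact_mod_cast h2
  have hN1' : (a : ℝ) ^ (1 + 2 * (ε / 32)) ≤ ((K * P * 2 : ℕ) : ℝ) := by
    rw [Real.rpow_add ha0, Real.rpow_one, ← hY2]
    exact hN1
  exact long_core lam hlam hsum hb hY hl1' hDl' hDu hN1 hN2 hK1 hK2 hP1 hP2 hP0 ha100 hN4 hK3 hBt
    hlogY hLY hLa (fun D' hD3 => (h7 2 (K * P * 2) D' (ex lam 0) (by push_cast; linarith) hN1'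
    (ex0_le hsum hb) hD3).2) hlg

end Vale.Agent.P181.H12
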