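import Vale.Agent.P181.H12.Spread

set_option autoImplicit false

/-!
# P181: heads and lower fillings with a fixed product of minors
-/

open MvPolynomial
open scoped Classical

namespace Vale.Agent.P181.H12

open Vale.Agent.P181 Vale.Agent.P181.H280 Vale.Agent.P181.FR Vale.Agent.P181.H188W
open Vale.Agent.P181.T4 Vale.Agent.P181.H463 Vale.Agent.P181.H699 Vale.Agent.P181.T7

/-- Frames with pairwise inequivalent types with trivial stabilisers; the columns of `F` carry a
fixed lower filling. -/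
theorem low_le_fix {m R N b k : ℕ} {T : Type} [Fintype T] {cls : T → ℕ}
    (hcls : ∀ t, cls t < R) {U : Type*} [Fintype U] (C : U → Type) [∀ u, Fintype (C u)]
    (Fr : ∀ u, Top7 m R N T cls (C u)) (F : ∀ u, Finset (C u)) (η : Fin (m - R) → ℕ)
    (fx : ∀ u (c : C u), Fin ((Fr u).len c - R) → Fin N)
    (hfx : ∀ u, ∀ c ∈ F u, Function.Injective (fx u c))
    (d : U → Fin N → ℕ) (t : ℕ → ℕ)
    (lam : Fin m → ℕ) (hcard : Fintype.card T + N = b)
    (hrows : ∀ u (i : Fin m), (Finset.univ.filter fun c => (i : ℕ) < (Fr u).len c).card = lam i)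
    (hη : ∀ u (i : Fin (m - R)),
      (Finset.univ.filter fun c => c ∉ F u ∧ R + (i : ℕ) < (Fr u).len c).card = η i)
    (htop : ∀ u x, (Fr u).inc (Sum.inl x) = k)
    (hpt : ∀ u q, ∑ i ∈ Finset.range R, (Fr u).typ q i +
      (d u q + ∑ c ∈ F u, (Finset.univ.filter fun s => fx u c s = q).card) = k)
    (hd : ∀ u i j, d u i ≤ d u j + 1)
    (hds : ∀ u, ∑ q, d u q = ∑ i, η i)
    (hF : ∀ u (lo : (c : C u) → Fin ((Fr u).len c - R) → Fin N), (Fr u).Forced t lo)
    (ht : ∀ u, ∀ i < R, ∑ q, (Fr u).typ q i = t i)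
    (hU : ∀ u u', (∃ σ : Equiv.Perm (Fin N), ∀ q, ∀ i < R,
      (Fr u).typ q i = (Fr u').typ (σ q) i) → u = u')
    (hinj : ∀ u q q', (∀ i < R, (Fr u).typ q i = (Fr u).typ q' i) → q = q') :
    Fintype.card U * gt (m - R) N η ≤
      ((∑ i, η i) + N - 1).choose (N - 1) * plethMult b k m lam := by
  have hpt' : ∀ u q, (Fr u).inc (Sum.inr q) +
      (d u q + ∑ c ∈ F u, (Finset.univ.filter fun s => fx u c s = q).card) = k := fun u q => by
    rw [Top7.inc_inr]
    exact hpt u q
  choose ι hι lo hlo hli hgt using fun u => exists_lower_fix (N := N) (Fr u).len (Fr u).len_le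
    (F u) η (hη u) (fx u) (hfx u) (d u) (hd u) (hds u)
  have e : Fin b ≃ T ⊕ Fin N := (Fintype.equivFinOfCardEq (by simpa using hcard)).symm
  have h1 := plethMult_ge_top7 C Fr ι lo e lam hrows htop (fun u β q => by
    rw [hlo u β q]
    exact hpt' u q) (linInd7_inj hcls C Fr lo t (fun u β => hF u (lo u β)) ht hU hinj e
      hli)
  calc Fintype.card U * gt (m - R) N η
      = ∑ _u : U, gt (m - R) N η := by
        rw [Finset.sum_const, Finset.card_univ, smul_eq_mul]
    _ ≤ ∑ u : U, ((∑ i, η i) + N - 1).choose (N - 1) * Fintype.card (ι u) :=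
        Finset.sum_le_sum fun u _ => hgt u
    _ = ((∑ i, η i) + N - 1).choose (N - 1) * ∑ u : U, Fintype.card (ι u) := by
        rw [Finset.mul_sum]
    _ ≤ _ := Nat.mul_le_mul_left _ h1

end Vale.Agent.P181.H12
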