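import Vale.Agent.P181.H310.Typ
import Vale.Agent.P181.H403.Num7

set_option autoImplicit false

/-!
# P181: parameters
-/

namespace Vale.Agent.P181.H12

open Finset Filter

lemma exp_four : Real.exp 4 ≤ 55 := by
  have h1 := Real.exp_one_lt_d9
  have h2 : Real.exp 4 = Real.exp 1 ^ 4 := by
    rw [← Real.exp_nat_mul]
    norm_num
  rw [h2]
  calc Real.exp 1 ^ 4 ≤ (2.7182818286 : ℝ) ^ 4 :=
        pow_le_pow_left₀ (Real.exp_pos _).le h1.le _
    _ ≤ 55 := by norm_num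

lemma choose_ge {a P h : ℕ} (hP0 : 0 < P) (hP : 1000 * P ≤ a) (hh : a ≤ 16 * (h + 2)) :
    P ≤ h ∧ Real.exp (4 * P) ≤ (h.choose P : ℝ) := by
  have h1 : 55 * P ≤ h := by omega
  refine ⟨by omega, ?_⟩
  have h2 := H310.div_pow_le_choose (v := h) (P := P) (by omega)
  refine le_trans ?_ h2
  have hP' : (0 : ℝ) < P := by exact_mod_cast hP0
  have h3 : (55 : ℝ) ≤ (h : ℝ) / P := by
    rw [le_div_iff₀ hP']
    exact_mod_cast h1
  have h4 : Real.exp (4 * P) = Real.exp 4 ^ P := by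
    rw [← Real.exp_nat_mul]
    congr 1
    ring
  rw [h4]
  exact pow_le_pow_left₀ (Real.exp_pos _).le (exp_four.trans h3) _

lemma U_ge {a P h K : ℕ} (hP0 : 0 < P) (hP : 1000 * P ≤ a) (hh : a ≤ 16 * (h + 2)) :
    Real.exp (2 * ((K * P * 2 : ℕ) : ℝ)) ≤ (((h.choose P) ^ K : ℕ) : ℝ) := by
  have h1 := (choose_ge hP0 hP hh).2
  have h2 : Real.exp (2 * ((K * P * 2 : ℕ) : ℝ)) = Real.exp (4 * P) ^ K := by
    rw [← Real.exp_nat_mul]
    congr 1
    push_cast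
    ring
  rw [h2]
  push_cast
  exact pow_le_pow_left₀ (Real.exp_pos _).le h1 _

/-- The room for the fixed filling. -/
lemma room {a P K B nmax : ℕ} (hK : 5000 ≤ K) (hP : a ≤ 2000 * P) (hP0 : 0 < P) (hn : nmax ≤ a)
    (hN : 4 * a ≤ K * P * 2)
    (hB1 : 3 * (P * (K * (K - 1))) + 2 * (K * P * 2) ≤ B)
    (hB2 : B < 3 * (P * (K * (K - 1))) + 2 * (K * P * 2) + nmax) :
    nmax * (2 * (3 * K + (B - 3 * (P * (K * (K - 1)))) / (K * P * 2) + 1)) < B := by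
  set N := K * P * 2 with hNdef
  have h1 : (B - 3 * (P * (K * (K - 1)))) / N ≤ 2 := by
    have : (B - 3 * (P * (K * (K - 1)))) / N < 3 := by
      rw [Nat.div_lt_iff_lt_mul (by omega)]
      omega
    omega
  have h2 : nmax * (2 * (3 * K + (B - 3 * (P * (K * (K - 1)))) / N + 1)) ≤
      2000 * P * (2 * (3 * K + 3)) := by
    refine Nat.mul_le_mul (by omega) ?_
    omega
  refine lt_of_le_of_lt h2 ?_
  refine lt_of_lt_of_le ?_ hB1
  have h3 : 2000 * P * (2 * (3 * K + 3)) = P * (12000 * K + 12000) := by ring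
  have h4 : 3 * (P * (K * (K - 1))) + 2 * N = P * (3 * (K * (K - 1)) + 4 * K) := by
    rw [hNdef]; ring
  rw [h3, h4]
  refine Nat.mul_lt_mul_of_pos_left ?_ hP0
  have h5 : K * 4999 ≤ K * (K - 1) := Nat.mul_le_mul_left _ (by omega)
  omega

/-- The parameters for a given power `X = a ^ th`. -/
lemma params {a : ℕ} {X : ℝ} (hX : 20 ≤ X) (haX : X ^ 8 ≤ a) :
    ∃ K P : ℕ, (a : ℝ) * X ^ 2 ≤ ((K * P * 2 : ℕ) : ℝ) ∧ ((K * P * 2 : ℕ) : ℝ) ≤ 3 * (a * X ^ 2) ∧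
      (K : ℝ) ≤ 1001 * X ^ 2 ∧ 5000 ≤ K ∧ a ≤ 2000 * P ∧ 1000 * P ≤ a ∧ 0 < P ∧
      100 ≤ a ∧ 4 * a ≤ K * P * 2 ∧ 30 * K + 40 ≤ a ∧
      (((3 * (P * (K * (K - 1))) + 2 * (K * P * 2) : ℕ)) : ℝ) ≤ 6100 * (a * X ^ 4) := by
  have hX0 : 0 < X := by linarith
  have hX2 : 400 ≤ X ^ 2 := by nlinarith
  have hX4 : 160000 ≤ X ^ 4 := by nlinarith
  have hX8 : (160000 : ℝ) * X ^ 4 ≤ X ^ 8 := by nlinarith
  have hX6 : 1000000 * X ^ 2 ≤ a := by
    have h1 : X ^ 8 = X ^ 6 * X ^ 2 := by ring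
    have h2 : (1000000 : ℝ) ≤ X ^ 6 := by
      have : X ^ 6 = X ^ 4 * X ^ 2 := by ring
      rw [this]
      nlinarith
    nlinarith
  have ha : (400000000 : ℝ) ≤ a := by nlinarith
  have ha' : 400000000 ≤ a := by exact_mod_cast ha
  set K := ⌈1000 * X ^ 2⌉₊ with hK
  set P := a / 1000 with hP
  have hK1 : 1000 * X ^ 2 ≤ K := Nat.le_ceil _
  have hK2 : (K : ℝ) < 1000 * X ^ 2 + 1 := Nat.ceil_lt_add_one (by positivity)
  have hP1 : 1000 * P ≤ a := Nat.mul_div_le _ _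
  have hP2 : a < 1000 * P + 1000 := by omega
  have hP1' : (1000 : ℝ) * P ≤ a := by exact_mod_cast hP1
  have hP2' : (a : ℝ) < 1000 * P + 1000 := by exact_mod_cast hP2
  have hPpos : (0 : ℝ) ≤ P := Nat.cast_nonneg _
  have hN1 : (a : ℝ) * X ^ 2 ≤ ((K * P * 2 : ℕ) : ℝ) := by
    push_cast
    have h1 : (a : ℝ) ≤ 2000 * P := by linarith
    have h2 : 1000 * X ^ 2 * P ≤ K * P := mul_le_mul_of_nonneg_right hK1 hPpos
    nlinarith
  have hN2 : ((K * P * 2 : ℕ) : ℝ) ≤ 3 * (a * X ^ 2) := by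
    push_cast
    have h2 : (K : ℝ) * (1000 * P) ≤ (1000 * X ^ 2 + 1) * a := by
      apply mul_le_mul hK2.le hP1' (by positivity) (by positivity)
    nlinarith
  have hKle : (K : ℝ) ≤ 1001 * X ^ 2 := by nlinarith
  have hK5 : 5000 ≤ K := by
    have : (5000 : ℝ) ≤ K := by nlinarith
    exact_mod_cast this
  refine ⟨K, P, hN1, hN2, hKle, hK5, by omega, hP1, by omega, by omega, ?_, ?_, ?_⟩
  · have : (4 : ℝ) * a ≤ ((K * P * 2 : ℕ) : ℝ) := by nlinarith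
    exact_mod_cast this
  · have : (30 : ℝ) * K + 40 ≤ a := by nlinarith
    exact_mod_cast this
  · have h1 : 3 * (P * (K * (K - 1))) + 2 * (K * P * 2) ≤ K * P * 2 * (2 * K) + 2 * (K * P * 2) := by
      have : 3 * (P * (K * (K - 1))) ≤ K * P * 2 * (2 * K) := by
        calc 3 * (P * (K * (K - 1))) ≤ 3 * (P * (K * K)) := by gcongr; omega
          _ ≤ 4 * (P * (K * K)) := by omega
          _ = K * P * 2 * (2 * K) := by ring
      omega
    have h2 : (((3 * (P * (K * (K - 1))) + 2 * (K * P * 2) : ℕ)) : ℝ) ≤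
        ((K * P * 2 : ℕ) : ℝ) * (2 * K) + 2 * ((K * P * 2 : ℕ) : ℝ) := by
      exact_mod_cast h1
    refine h2.trans ?_
    set n : ℝ := ((K * P * 2 : ℕ) : ℝ) with hn
    have hn0 : 0 ≤ n := Nat.cast_nonneg _
    have hK0 : (0 : ℝ) ≤ K := Nat.cast_nonneg _
    have h3 : n * (2 * K) ≤ 3 * (a * X ^ 2) * (2 * (1001 * X ^ 2)) := by gcongr
    have h4 : (a : ℝ) * X ^ 2 ≤ a * X ^ 4 := by
      have : X ^ 2 ≤ X ^ 4 := by nlinarith
      exact mul_le_mul_of_nonneg_left this (Nat.cast_nonneg _)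
    have h5 : 3 * (a * X ^ 2) * (2 * (1001 * X ^ 2)) = 6006 * ((a : ℝ) * X ^ 4) := by ring
    linarith

end Vale.Agent.P181.H12
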