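import Vale.Agent.P181.S6.Spec

/-!
# P181, [S6-GEN]: union bound in a finite product

Independent samples: all targets are missed by some column and all degrees are small.
-/

set_option autoImplicit false

namespace Vale.Agent.P181.H12

open Finset Vale.Agent.P181.H59 Vale.Agent.P181.S6

theorem choose_le_three (N k : ℕ) (hk : 0 < k) :
    (N.choose k : ℝ) ≤ (3 * N / k) ^ k := by
  have hk' : (0 : ℝ) < k := by exact_mod_cast hk
  have hf : (0 : ℝ) < (k.factorial : ℝ) := by exact_mod_cast Nat.factorial_pos k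
  have h1 : (N.choose k : ℝ) ≤ (N : ℝ) ^ k / k.factorial := Nat.choose_le_pow_div k N
  have h2 : ((k : ℝ) / 3) ^ k ≤ k.factorial := by
    have h3 := Real.pow_div_factorial_le_exp (k : ℝ) (by positivity) k
    rw [div_le_iff₀ hf] at h3
    have h4 : Real.exp (k : ℝ) ≤ (3 : ℝ) ^ k := by
      have h5 : Real.exp (k : ℝ) = Real.exp 1 ^ k := by
        rw [← Real.exp_nat_mul, mul_one]
      rw [h5]
      apply pow_le_pow_left₀ (Real.exp_pos 1).le
      have := Real.exp_one_lt_d9
      linarith
    rw [div_pow, div_le_iff₀ (by positivity)]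
    calc (k : ℝ) ^ k ≤ Real.exp k * k.factorial := h3
      _ ≤ (3 : ℝ) ^ k * k.factorial := mul_le_mul_of_nonneg_right h4 hf.le
      _ = _ := by ring
  refine h1.trans ?_
  rw [div_le_iff₀ hf]
  have h6 : (3 * (N : ℝ) / k) ^ k * (k / 3) ^ k = (N : ℝ) ^ k := by
    rw [← mul_pow]
    congr 1
    field_simp
  rw [← h6]
  exact mul_le_mul_of_nonneg_left h2 (by positivity)

section

variable {N b : ℕ} {Ω : Fin N → Type} [∀ c, Fintype (Ω c)]

open Classical in
theorem card_allhit (A : ∀ c, Ω c → Finset (Fin b)) (T : Finset (Fin b)) (x : ℝ)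
    (h : ∀ c, x * Fintype.card (Ω c) ≤
      ((univ.filter fun ω : Ω c => Disjoint (A c ω) T).card : ℝ)) :
    ((univ.filter fun ω : ∀ c, Ω c => ∀ c, ¬ Disjoint (A c (ω c)) T).card : ℝ) ≤
      Real.exp (-(N * x)) * ∏ c, (Fintype.card (Ω c) : ℝ) := by
  have h1 : (univ.filter fun ω : ∀ c, Ω c => ∀ c, ¬ Disjoint (A c (ω c)) T) =
      Fintype.piFinset (fun c => univ.filter fun ω : Ω c => ¬ Disjoint (A c ω) T) := by
    ext ω
    simp [Fintype.mem_piFinset]
  rw [h1, Fintype.card_piFinset]
  push_cast
  have h2 : ∀ c : Fin N, ((univ.filter fun ω : Ω c => ¬ Disjoint (A c ω) T).card : ℝ) ≤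
      Real.exp (-x) * (Fintype.card (Ω c) : ℝ) := by
    intro c
    have h3 : ((univ.filter fun ω : Ω c => Disjoint (A c ω) T).card : ℝ) +
        ((univ.filter fun ω : Ω c => ¬ Disjoint (A c ω) T).card : ℝ) =
        (Fintype.card (Ω c) : ℝ) := by
      have := Finset.card_filter_add_card_filter_not (s := (univ : Finset (Ω c)))
        (fun ω : Ω c => Disjoint (A c ω) T)
      rw [Finset.card_univ] at this
      exact_mod_cast this
    have h4 := h c
    have h5 := Real.add_one_le_exp (-x)
    have h6 : (0 : ℝ) ≤ Fintype.card (Ω c) := Nat.cast_nonneg _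
    nlinarith [mul_le_mul_of_nonneg_right h5 h6]
  calc ∏ c, ((univ.filter fun ω : Ω c => ¬ Disjoint (A c ω) T).card : ℝ) ≤
      ∏ c : Fin N, (Real.exp (-x) * (Fintype.card (Ω c) : ℝ)) :=
        Finset.prod_le_prod (fun c _ => Nat.cast_nonneg _) (fun c _ => h2 c)
    _ = Real.exp (-(N * x)) * ∏ c, (Fintype.card (Ω c) : ℝ) := by
        rw [Finset.prod_mul_distrib, Finset.prod_const, Finset.card_univ, Fintype.card_fin,
          ← Real.exp_nat_mul]
        congr 2
        ring

open Classical in
theorem card_deg (A : ∀ c, Ω c → Finset (Fin b)) (p : Fin b) (q : ℝ) (hq : 0 ≤ q)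
    (h : ∀ c, ((univ.filter fun ω : Ω c => p ∈ A c ω).card : ℝ) ≤
      q * Fintype.card (Ω c)) (k : ℕ) :
    ((univ.filter fun ω : ∀ c, Ω c =>
      k ≤ (univ.filter fun c => p ∈ A c (ω c)).card).card : ℝ) ≤
      (N.choose k : ℝ) * q ^ k * ∏ c, (Fintype.card (Ω c) : ℝ) := by
  have h1 : (univ.filter fun ω : ∀ c, Ω c =>
      k ≤ (univ.filter fun c => p ∈ A c (ω c)).card) ⊆
      (powersetCard k (univ : Finset (Fin N))).biUnion fun S =>
        Fintype.piFinset (fun c => if c ∈ S then univ.filter fun ω : Ω c => p ∈ A c ω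
          else univ) := by
    intro ω hω
    rw [mem_filter] at hω
    obtain ⟨S, hS, hSc⟩ := Finset.exists_subset_card_eq hω.2
    rw [mem_biUnion]
    refine ⟨S, mem_powersetCard.2 ⟨subset_univ _, hSc⟩, ?_⟩
    rw [Fintype.mem_piFinset]
    intro c
    by_cases hc : c ∈ S
    · rw [if_pos hc, mem_filter]
      exact ⟨mem_univ _, (mem_filter.1 (hS hc)).2⟩
    · rw [if_neg hc]
      exact mem_univ _
  have h2 : ∀ S ∈ powersetCard k (univ : Finset (Fin N)),
      ((Fintype.piFinset (fun c => if c ∈ S then univ.filter fun ω : Ω c => p ∈ A c ω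
          else univ)).card : ℝ) ≤ q ^ k * ∏ c, (Fintype.card (Ω c) : ℝ) := by
    intro S hS
    rw [Fintype.card_piFinset]
    push_cast
    calc ∏ c, ((if c ∈ S then univ.filter fun ω : Ω c => p ∈ A c ω
          else univ : Finset (Ω c)).card : ℝ) ≤
        ∏ c : Fin N, ((if c ∈ S then q else 1) * (Fintype.card (Ω c) : ℝ)) := by
          apply Finset.prod_le_prod (fun c _ => Nat.cast_nonneg _)
          intro c _
          by_cases hc : c ∈ S
          · rw [if_pos hc, if_pos hc]
            exact h c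
          · rw [if_neg hc, if_neg hc, one_mul, Finset.card_univ]
      _ = q ^ k * ∏ c, (Fintype.card (Ω c) : ℝ) := by
          rw [Finset.prod_mul_distrib, Finset.prod_ite_mem, Finset.univ_inter,
            Finset.prod_const, (mem_powersetCard.1 hS).2]
  calc ((univ.filter fun ω : ∀ c, Ω c =>
      k ≤ (univ.filter fun c => p ∈ A c (ω c)).card).card : ℝ) ≤
      (((powersetCard k (univ : Finset (Fin N))).biUnion fun S =>
        Fintype.piFinset (fun c => if c ∈ S then univ.filter fun ω : Ω c => p ∈ A c ω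
          else univ)).card : ℝ) := by exact_mod_cast Finset.card_le_card h1
    _ ≤ ∑ S ∈ powersetCard k (univ : Finset (Fin N)),
        ((Fintype.piFinset (fun c => if c ∈ S then univ.filter fun ω : Ω c => p ∈ A c ω
          else univ)).card : ℝ) := by exact_mod_cast Finset.card_biUnion_le
    _ ≤ ∑ _S ∈ powersetCard k (univ : Finset (Fin N)),
        (q ^ k * ∏ c, (Fintype.card (Ω c) : ℝ)) := Finset.sum_le_sum h2
    _ = _ := by
        rw [Finset.sum_const, Finset.card_powersetCard, Finset.card_univ, Fintype.card_fin,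
          nsmul_eq_mul]
        ring

end

/-- **[S6-GEN]** -/
theorem gen_stmt : GenStmt := by
  classical
  intro N b P Ω _ _ A 𝒯 x q hq hmiss hdeg hlt
  by_contra hcon
  have hcon' : ∀ ω : ∀ c, Ω c, ¬ ((∀ T ∈ 𝒯, ∃ c, Disjoint (A c (ω c)) T) ∧
      ∀ p, (univ.filter fun c => p ∈ A c (ω c)).card ≤ P) := fun ω h => hcon ⟨ω, h⟩
  set M : ℝ := ∏ c, (Fintype.card (Ω c) : ℝ) with hM
  have hMpos : 0 < M := by
    apply Finset.prod_pos
    intro c _
    exact_mod_cast Fintype.card_pos
  have hcov : (univ : Finset (∀ c, Ω c)) ⊆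
      (𝒯.biUnion fun T => univ.filter fun ω : ∀ c, Ω c => ∀ c, ¬ Disjoint (A c (ω c)) T) ∪
      (univ.biUnion fun p : Fin b => univ.filter fun ω : ∀ c, Ω c =>
        P + 1 ≤ (univ.filter fun c => p ∈ A c (ω c)).card) := by
    intro ω _
    rw [mem_union, mem_biUnion, mem_biUnion]
    by_contra hno
    push Not at hno
    apply hcon' ω
    refine ⟨?_, ?_⟩
    · intro T hT
      have h1 := hno.1 T hT
      rw [mem_filter] at h1
      push Not at h1
      exact h1 (mem_univ _)
    · intro p
      have h1 := hno.2 p (mem_univ _)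
      rw [mem_filter] at h1
      push Not at h1
      have := h1 (mem_univ _)
      omega
  have hcard : (((univ : Finset (∀ c, Ω c)).card : ℕ) : ℝ) = M := by
    rw [Finset.card_univ, Fintype.card_pi]
    push_cast
    rfl
  have h1 : M ≤ (∑ T ∈ 𝒯, Real.exp (-(N * x T)) * M) +
      ∑ _p : Fin b, (3 * N * q / (P + 1)) ^ (P + 1) * M := by
    calc M = (((univ : Finset (∀ c, Ω c)).card : ℕ) : ℝ) := hcard.symm
      _ ≤ (((𝒯.biUnion fun T => univ.filter fun ω : ∀ c, Ω c =>
            ∀ c, ¬ Disjoint (A c (ω c)) T) ∪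
          (univ.biUnion fun p : Fin b => univ.filter fun ω : ∀ c, Ω c =>
            P + 1 ≤ (univ.filter fun c => p ∈ A c (ω c)).card)).card : ℝ) := by
          exact_mod_cast Finset.card_le_card hcov
      _ ≤ ((𝒯.biUnion fun T => univ.filter fun ω : ∀ c, Ω c =>
            ∀ c, ¬ Disjoint (A c (ω c)) T).card : ℝ) +
          ((univ.biUnion fun p : Fin b => univ.filter fun ω : ∀ c, Ω c =>
            P + 1 ≤ (univ.filter fun c => p ∈ A c (ω c)).card).card : ℝ) := by
          exact_mod_cast Finset.card_union_le _ _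
      _ ≤ (∑ T ∈ 𝒯, ((univ.filter fun ω : ∀ c, Ω c =>
            ∀ c, ¬ Disjoint (A c (ω c)) T).card : ℝ)) +
          ∑ p : Fin b, ((univ.filter fun ω : ∀ c, Ω c =>
            P + 1 ≤ (univ.filter fun c => p ∈ A c (ω c)).card).card : ℝ) := by
          apply add_le_add
          · exact_mod_cast Finset.card_biUnion_le
          · exact_mod_cast Finset.card_biUnion_le
      _ ≤ _ := by
          apply add_le_add
          · apply Finset.sum_le_sum
            intro T hT
            exact card_allhit A T (x T) (fun c => hmiss c T hT)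
          · apply Finset.sum_le_sum
            intro p _
            refine (card_deg A p q hq (fun c => hdeg c p) (P + 1)).trans ?_
            rw [← hM]
            apply mul_le_mul_of_nonneg_right _ hMpos.le
            have h3 := choose_le_three N (P + 1) (Nat.succ_pos P)
            calc (N.choose (P + 1) : ℝ) * q ^ (P + 1) ≤
                (3 * N / ((P + 1 : ℕ) : ℝ)) ^ (P + 1) * q ^ (P + 1) :=
                  mul_le_mul_of_nonneg_right h3 (pow_nonneg hq _)
              _ = (3 * N * q / (P + 1)) ^ (P + 1) := by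
                  rw [← mul_pow]
                  congr 1
                  push_cast
                  ring
  have h2 : (∑ T ∈ 𝒯, Real.exp (-(N * x T)) * M) +
      ∑ _p : Fin b, (3 * N * q / (P + 1)) ^ (P + 1) * M =
      ((∑ T ∈ 𝒯, Real.exp (-(N * x T))) + b * (3 * N * q / (P + 1)) ^ (P + 1)) * M := by
    rw [← Finset.sum_mul, Finset.sum_const, Finset.card_univ, Fintype.card_fin, nsmul_eq_mul]
    ring
  rw [h2] at h1
  nlinarith [mul_lt_mul_of_pos_right hlt hMpos]

end Vale.Agent.P181.H12
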