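import Vale.Agent.P181.Z.H483.XE
import Vale.Agent.P181.H921.ZNp

/-!
# P181, Z: heavy and light rows

Pigeonhole over `h + 1` scales, the split of an antitone vector into heavy and light rows, and the
bound for `x j` on heavy rows.
-/

set_option autoImplicit false

open Real Finset

namespace Vale.Agent.P181.H12.Scale

open Vale.Agent.P181.Z.H483 Vale.Agent.P181.Z.H582 Vale.Agent.P181.H921.Z

/-- one of `h + 1` scales has no entry near it. -/
theorem exists_scale {h : ℕ} (lam : Fin h → ℝ) (a D η : ℝ) (ha : 1 < a) (hD : 0 < D)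
    (hη : 0 < η) :
    ∃ t : ℕ, 1 ≤ t ∧ t ≤ h + 1 ∧
      ∀ j, lam j < D * a ^ (η * t - η / 2) ∨ D * a ^ (η * t + η / 2) ≤ lam j := by
  by_contra hc
  push Not at hc
  have h1 : ∀ t : Fin (h + 1), ∃ j, D * a ^ (η * ((t : ℕ) + 1 : ℕ) - η / 2) ≤ lam j ∧
      lam j < D * a ^ (η * ((t : ℕ) + 1 : ℕ) + η / 2) := fun t =>
    hc ((t : ℕ) + 1) (Nat.succ_le_succ (Nat.zero_le _)) (Nat.succ_le_succ (Nat.lt_succ_iff.1 t.2))
  choose j hj1 hj2 using h1
  obtain ⟨s, t, hst, he⟩ := Fintype.exists_ne_map_eq_of_card_lt j (by simp)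
  have key : ∀ s t : Fin (h + 1), s < t → j s = j t → False := by
    intro s t hlt he
    have e1 := hj2 s
    have e2 := hj1 t
    rw [he] at e1
    have e3 : (η * ((s : ℕ) + 1 : ℕ) + η / 2 : ℝ) ≤ η * ((t : ℕ) + 1 : ℕ) - η / 2 := by
      have : ((s : ℕ) : ℝ) + 1 ≤ (t : ℕ) := by exact_mod_cast hlt
      push_cast
      nlinarith
    have e4 : a ^ (η * ((s : ℕ) + 1 : ℕ) + η / 2 : ℝ) ≤ a ^ (η * ((t : ℕ) + 1 : ℕ) - η / 2 : ℝ) :=
      Real.rpow_le_rpow_of_exponent_le ha.le e3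
    have e5 := mul_le_mul_of_nonneg_left e4 hD.le
    linarith
  rcases lt_or_gt_of_ne hst with h2 | h2
  · exact key s t h2 he
  · exact key t s h2 he.symm

/-- an antitone vector is cut by an upper set of values into an initial and a final piece. -/
theorem exists_split {h : ℕ} (lam : Fin h → ℕ) (hlam : Antitone lam) (P Q : ℕ → Prop)
    (hQ : ∀ j, P (lam j) ∨ Q (lam j)) (hP : ∀ m m', m ≤ m' → P m → P m') :
    ∃ (p l : ℕ) (e : p + l = h) (lH : Fin p → ℕ) (lL : Fin l → ℕ),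
      lam = Fin.append lH lL ∘ Fin.cast e.symm ∧ Antitone lH ∧ Antitone lL ∧
      (∀ i, P (lH i)) ∧ (∀ i, Q (lL i)) := by
  classical
  -- `p` is the least index with `¬ P`
  obtain ⟨p, hp, hp1, hp2⟩ : ∃ p, p ≤ h ∧ (∀ j : Fin h, (j : ℕ) < p → P (lam j)) ∧
      (∀ j : Fin h, p ≤ (j : ℕ) → ¬ P (lam j)) := by
    by_cases hex : ∃ j : Fin h, ¬ P (lam j)
    · obtain ⟨j, hj⟩ := hex
      have hne : ∃ n, ∃ hn : n < h, ¬ P (lam ⟨n, hn⟩) := ⟨j, j.2, hj⟩
      refine ⟨Nat.find hne, ?_, ?_, ?_⟩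
      · exact (Nat.find_spec hne).1.le
      · intro i hi
        by_contra hc
        exact Nat.find_min hne hi ⟨i.2, hc⟩
      · intro i hi hPi
        obtain ⟨hn, hn2⟩ := Nat.find_spec hne
        exact hn2 (hP _ _ (hlam (show (⟨Nat.find hne, hn⟩ : Fin h) ≤ i from hi)) hPi)
    · push Not at hex
      exact ⟨h, le_rfl, fun j _ => hex j, fun j hj => absurd j.2 (not_lt.2 hj)⟩
  obtain ⟨l, rfl⟩ := Nat.exists_eq_add_of_le hp
  refine ⟨p, l, rfl, fun i => lam (Fin.castAdd l i), fun j => lam (Fin.natAdd p j), ?_, ?_, ?_,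
    ?_, ?_⟩
  · funext i
    simp only [Function.comp_apply, Fin.cast_eq_self]
    refine Fin.addCases (fun i => ?_) (fun j => ?_) i
    · rw [Fin.append_left]
    · rw [Fin.append_right]
  · exact fun i j hij => hlam (show (Fin.castAdd l i : ℕ) ≤ (Fin.castAdd l j : ℕ) from hij)
  · exact fun i j hij => hlam (by simpa using hij)
  · exact fun i => hp1 _ (by simp)
  · intro j
    rcases hQ (Fin.natAdd p j) with h1 | h1
    · exact absurd h1 (hp2 _ (by simp))
    · exact h1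

/-- **the heavy / light split**. -/
theorem exists_heavy {h : ℕ} (lam : Fin h → ℕ) (hlam : Antitone lam) (a D η : ℝ) (ha : 1 < a)
    (hD : 0 < D) (hη : 0 < η) :
    ∃ t : ℕ, 1 ≤ t ∧ t ≤ h + 1 ∧ ∃ (p l : ℕ) (e : p + l = h) (lH : Fin p → ℕ) (lL : Fin l → ℕ),
      lam = Fin.append lH lL ∘ Fin.cast e.symm ∧ Antitone lH ∧ Antitone lL ∧
      (∀ i, D * a ^ (η * t + η / 2) ≤ lH i) ∧ (∀ i, (lL i : ℝ) < D * a ^ (η * t - η / 2)) := by
  obtain ⟨t, ht1, ht2, ht⟩ := exists_scale (fun j => (lam j : ℝ)) a D η ha hD hη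
  refine ⟨t, ht1, ht2, exists_split lam hlam (fun m => D * a ^ (η * t + η / 2) ≤ (m : ℝ))
    (fun m => (m : ℝ) < D * a ^ (η * t - η / 2)) (fun j => (ht j).symm) ?_⟩
  intro m m' hm h1
  have : (m : ℝ) ≤ m' := by exact_mod_cast hm
  linarith

/-- number of letters -/
theorem card_Lt_le (a h : ℕ) : (Lt a h).card ≤ (a + 1) ^ h := by
  unfold Lt
  refine (Finset.card_filter_le _ _).trans ?_
  rw [Fintype.card_piFinset_const, Finset.card_range]

/-- a row with a large `x j` has mean at most one. -/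
theorem mean_le_one {h : ℕ} (a : ℕ) (x : Fin h → ℝ) (hx : ∀ i, 0 < x i) (j : Fin h)
    (hj : 2 * h * Real.log (a + 1) + 1 ≤ x j) : mean (Lt a h) x j ≤ 1 := by
  have ha1 : (0 : ℝ) < (a : ℝ) + 1 := by positivity
  have hlog : 0 ≤ Real.log ((a : ℝ) + 1) := Real.log_nonneg (by linarith [Nat.cast_nonneg (α := ℝ) a])
  have hx1 : 1 ≤ x j := by
    have : 0 ≤ 2 * (h : ℝ) * Real.log (a + 1) := by positivity
    linarith
  have hterm : ∀ v ∈ Lt a h, v j * (exp (-dotp x v) / (1 - exp (-dotp x v))) ≤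
      exp (-(x j) / 2) := by
    intro v hv
    rcases Nat.eq_zero_or_pos (v j) with h0 | h0
    · rw [h0]
      simp only [Nat.cast_zero, zero_mul]
      exact (exp_pos _).le
    have hv0 : v ≠ 0 := fun hc => by rw [hc] at h0; exact absurd h0 (lt_irrefl _)
    have ht := dotp_pos x hx hv0
    have h1 := mul_le_dotp x hx v j
    have hv1 : (1 : ℝ) ≤ v j := by exact_mod_cast h0
    have h2 : exp (-dotp x v) < 1 := by rw [Real.exp_lt_one_iff]; linarith
    have h3 : 0 ≤ exp (-dotp x v) / (1 - exp (-dotp x v)) :=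
      div_nonneg (exp_pos _).le (by linarith)
    have h4 : (v j : ℝ) ≤ dotp x v := by nlinarith
    calc (v j : ℝ) * (exp (-dotp x v) / (1 - exp (-dotp x v)))
        ≤ dotp x v * (exp (-dotp x v) / (1 - exp (-dotp x v))) := by gcongr
      _ ≤ exp (-(dotp x v) / 2) := mul_gm_le ht
      _ ≤ exp (-(x j) / 2) := by
        apply Real.exp_le_exp.2
        nlinarith
  calc mean (Lt a h) x j ≤ ∑ _v ∈ Lt a h, exp (-(x j) / 2) := Finset.sum_le_sum hterm
    _ = (Lt a h).card * exp (-(x j) / 2) := by rw [Finset.sum_const, nsmul_eq_mul]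
    _ ≤ ((a : ℝ) + 1) ^ h * exp (-(x j) / 2) := by
        have : ((Lt a h).card : ℝ) ≤ ((a : ℝ) + 1) ^ h := by exact_mod_cast card_Lt_le a h
        gcongr
    _ = exp (h * Real.log (a + 1) + -(x j) / 2) := by
        rw [Real.exp_add, ← Real.log_pow, Real.exp_log (by positivity)]
    _ ≤ 1 := by
        rw [Real.exp_le_one_iff]
        linarith

/-- **heavy rows have `x j = O(log a)`**. -/
theorem heavy_x_le {h : ℕ} (a : ℕ) (x : Fin h → ℝ) (hx : ∀ i, 0 < x i) (j : Fin h)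
    (lam kap c : ℝ) (hc : 0 ≤ c) (hm : lam ≤ mean (Lt a h) x j + kap + c / x j)
    (hlam : 1 + kap + c < lam) : x j ≤ 2 * h * Real.log (a + 1) + 1 := by
  by_contra hj
  rw [not_le] at hj
  have h1 := mean_le_one a x hx j hj.le
  have hlog : 0 ≤ Real.log ((a : ℝ) + 1) := Real.log_nonneg (by linarith [Nat.cast_nonneg (α := ℝ) a])
  have hx1 : 1 ≤ x j := by
    have : 0 ≤ 2 * (h : ℝ) * Real.log (a + 1) := by positivity
    linarith
  have h2 : c / x j ≤ c := div_le_self hc hx1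
  linarith

end Vale.Agent.P181.H12.Scale
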