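import Vale.Agent.P181.H12.Compare
import Vale.Agent.P181.H12.Par

set_option autoImplicit false

/-!
# P181: the short case
-/

open scoped Classical

namespace Vale.Agent.P181.H12

open Finset Filter Vale.Agent.P181.T4 Vale.Agent.P181.H463 Vale.Agent.P181.H280

lemma muF_le {a : ℕ} {lam : Fin a → ℕ} (F : Finset (Fin (ex lam 0))) (i : Fin (a - 2)) :
    muF lam F i ≤ ex lam 0 := by
  have := card_le_univ (univ.filter fun c : Fin (ex lam 0) =>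
    c ∈ F ∧ 2 + (i : ℕ) < colLen a (ex lam) c)
  rwa [Fintype.card_fin] at this

lemma ex0_le {a b : ℕ} {lam : Fin a → ℕ} (hsum : ∑ i, lam i = a * b) (hb : b ≤ a ^ 2) :
    ex lam 0 ≤ a ^ 3 := by
  have h1 := H403.ex_le_sum lam
  calc ex lam 0 ≤ a * b := by rw [← hsum]; exact h1
    _ ≤ a * a ^ 2 := Nat.mul_le_mul_left _ hb
    _ = a ^ 3 := by ring

/-- Comparison with the chosen parameters. -/
theorem compare2 {a b K P x y nmax : ℕ} {X : ℝ} (lam : Fin a → ℕ) (hlam : Antitone lam)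
    (hsum : ∑ i, lam i = a * b) (hb : b ≤ a ^ 2) (hX : 20 ≤ X)
    (hl1 : (a : ℝ) ^ 2 * X ^ 8 ≤ ex lam 1) (hDu : ∑ i, low 2 lam i ≤ a ^ 2)
    (hN1 : (a : ℝ) * X ^ 2 ≤ ((K * P * 2 : ℕ) : ℝ)) (hN2 : ((K * P * 2 : ℕ) : ℝ) ≤ 3 * (a * X ^ 2))
    (hK2 : 5000 ≤ K) (hP1 : a ≤ 2000 * P) (hP2 : 1000 * P ≤ a) (hP0 : 0 < P) (ha100 : 100 ≤ a)
    (hN4 : 4 * a ≤ K * P * 2) (hK3 : 30 * K + 40 ≤ a)
    (hn : ∀ c, x ≤ c → colLen a (ex lam) c - 2 ≤ nmax) (hna : nmax ≤ a)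
    (hy1 : 3 * (P * (K * (K - 1))) + 2 * (K * P * 2) ≤
      ∑ c ∈ FI lam x y, (colLen a (ex lam) c - 2))
    (hy2 : ∑ c ∈ FI lam x y, (colLen a (ex lam) c - 2) <
      3 * (P * (K * (K - 1))) + 2 * (K * P * 2) + nmax)
    (cost G : ℝ) (hcost0 : 0 ≤ cost)
    (hcost : (gt (a - 2) a (muF lam (FI lam x y)) : ℝ) ≤ cost) (hG0 : 0 < G)
    (hG : G ≤ ∏ i, (1 + (etaF lam (FI lam x y) i : ℝ) / ((K * P * 2 : ℕ) : ℝ)))
    (hnum : ((ex lam 0 : ℝ) + 1) ^ (a * 2) * cost *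
      (((∑ i, etaF lam (FI lam x y) i) + K * P * 2 - 1).choose (K * P * 2 - 1) : ℝ) ≤
      Real.exp (2 * ((K * P * 2 : ℕ) : ℝ)) * G ^ (K * P * 2 - a)) :
    plethMult a b a lam ≤ plethMult b a a lam := by
  have hah : a ≤ 16 * (a / 16 - 1 + 2) := by omega
  have hU := U_ge (K := K) hP0 hP2 hah
  have hPh := (choose_ge hP0 hP2 hah).1
  have ha0 : (0 : ℝ) < a := by exact_mod_cast (by omega : 0 < a)
  have ha1 : (1 : ℝ) ≤ a := by exact_mod_cast (by omega : 1 ≤ a)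
  have hX2 : 400 ≤ X ^ 2 := by nlinarith
  have hX8 : 160000 * X ^ 2 ≤ X ^ 8 := by
    have h1 : X ^ 8 = X ^ 2 * (X ^ 2 * (X ^ 2 * X ^ 2)) := by ring
    have h2 : 160000 ≤ X ^ 2 * (X ^ 2 * X ^ 2) := by
      have : 160000 ≤ X ^ 2 * X ^ 2 := by nlinarith
      nlinarith
    rw [h1]
    nlinarith
  have haN : 8 * a ≤ K * P * 2 := by
    have : (8 : ℝ) * a ≤ ((K * P * 2 : ℕ) : ℝ) := by nlinarith
    exact_mod_cast this
  have hD : 8 * ∑ i, low 2 lam i ≤ a * (K * P * 2) := by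
    calc 8 * ∑ i, low 2 lam i ≤ 8 * a ^ 2 := Nat.mul_le_mul_left _ hDu
      _ = a * (8 * a) := by ring
      _ ≤ a * (K * P * 2) := Nat.mul_le_mul_left _ haN
  have hbig : 100 * ((a : ℝ) ^ 2 * X ^ 2) ≤ ex lam 1 := by
    refine le_trans ?_ hl1
    have : (0 : ℝ) ≤ (a : ℝ) ^ 2 := by positivity
    nlinarith
  have haN' : ((a * (K * P * 2) : ℕ) : ℝ) ≤ 3 * ((a : ℝ) ^ 2 * X ^ 2) := by
    rw [Nat.cast_mul]
    nlinarith
  have h3 : 3 * (a * (K * P * 2)) ≤ ex lam 1 := by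
    have : (3 : ℝ) * ((a * (K * P * 2) : ℕ) : ℝ) ≤ ex lam 1 := by
      have : (0 : ℝ) ≤ (a : ℝ) ^ 2 * X ^ 2 := by positivity
      linarith
    exact_mod_cast this
  have hr : 2 * b + 2 * (K * P * 2) + a * (K * P * 2) ≤ ex lam 1 := by
    have h4 : (b : ℝ) ≤ (a : ℝ) ^ 2 := by exact_mod_cast hb
    have h5 : ((K * P * 2 : ℕ) : ℝ) ≤ ((a * (K * P * 2) : ℕ) : ℝ) := by
      have : K * P * 2 ≤ a * (K * P * 2) := Nat.le_mul_of_pos_left _ (by omega)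
      exact_mod_cast this
    have h6 : (a : ℝ) ^ 2 ≤ (a : ℝ) ^ 2 * X ^ 2 := by
      have : (0 : ℝ) ≤ (a : ℝ) ^ 2 := by positivity
      nlinarith
    have : (2 : ℝ) * b + 2 * ((K * P * 2 : ℕ) : ℝ) + ((a * (K * P * 2) : ℕ) : ℝ) ≤ ex lam 1 := by
      linarith
    exact_mod_cast this
  refine compare (K := K) (P := P) (h := a / 16 - 1) (N := K * P * 2) (nmax := nmax) lam hlam hsum
    (FI lam x y) rfl rfl hD ha100 hN4 hb h3 hr (by omega) hK3 ?_ (by omega) (by omega)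
    (room hK2 hP1 hP0 hna hN4 hy1 hy2) hPh cost G hcost0 hcost hG0 hG ?_
  · intro c hc
    refine hn c ?_
    rw [FI, mem_filter] at hc
    exact hc.2.1
  · refine hnum.trans ?_
    exact mul_le_mul_of_nonneg_right hU (by positivity)

/-- the case of many boxes in short columns -/
theorem short (ε : ℝ) (hε : 0 < ε) (hε1 : ε ≤ 1) : ∀ᶠ a : ℕ in atTop, ∀ (b : ℕ) (lam : Fin a → ℕ),
    b ≤ a ^ 2 → Antitone lam → ∑ i, lam i = a * b → (a : ℝ) ^ (2 + ε) ≤ ex lam 1 →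
    (a : ℝ) ^ (1 + ε) ≤ ((∑ i, low 2 lam i : ℕ) : ℝ) → ∑ i, low 2 lam i ≤ a ^ 2 →
    ∑ i, low 2 lam i ≤ 2 * ∑ i : Fin (a - 2),
      (ex lam (2 + i) - ex lam (2 + (⌊(a : ℝ) ^ (ε / 8)⌋₊ - 2))) →
    plethMult a b a lam ≤ plethMult b a a lam := by
  have hlim : ∀ᶠ a : ℕ in atTop, (20 : ℝ) ≤ (a : ℝ) ^ (ε / 8) := by
    have h1 : Tendsto (fun a : ℕ => (a : ℝ) ^ (ε / 8)) atTop atTop :=
      (tendsto_rpow_atTop (by positivity)).comp tendsto_natCast_atTop_atTop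
    exact h1.eventually_ge_atTop 20
  filter_upwards [H403.num7 (ε / 8) 1 (by positivity) one_pos, hlim] with a h7 hX b lam hb hlam
    hsum hl1 hDl hDu hsh
  obtain ⟨ha3, h7⟩ := h7
  have ha1 : (1 : ℝ) ≤ a := by exact_mod_cast (by omega : 1 ≤ a)
  have ha0 : (0 : ℝ) < a := by linarith
  set X : ℝ := (a : ℝ) ^ (ε / 8) with hXdef
  have hX8 : X ^ 8 = (a : ℝ) ^ ε := by
    rw [hXdef, ← Real.rpow_natCast, ← Real.rpow_mul ha0.le]
    congr 1
    push_cast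
    ring
  have hX2 : X ^ 2 = (a : ℝ) ^ (2 * (ε / 8)) := by
    rw [hXdef, ← Real.rpow_natCast, ← Real.rpow_mul ha0.le]
    congr 1
    push_cast
    ring
  have haX : X ^ 8 ≤ a := by
    rw [hX8]
    calc (a : ℝ) ^ ε ≤ (a : ℝ) ^ (1 : ℝ) := Real.rpow_le_rpow_of_exponent_le ha1 hε1
      _ = a := Real.rpow_one _
  have hl1' : (a : ℝ) ^ 2 * X ^ 8 ≤ ex lam 1 := by
    rw [Real.rpow_add ha0, ← hX8] at hl1
    have : (a : ℝ) ^ (2 : ℝ) = (a : ℝ) ^ 2 := by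
      rw [← Real.rpow_natCast]; norm_num
    rwa [this] at hl1
  have hDl' : (a : ℝ) * X ^ 8 ≤ ((∑ i, low 2 lam i : ℕ) : ℝ) := by
    rw [Real.rpow_add ha0, ← hX8, Real.rpow_one] at hDl
    exact hDl
  obtain ⟨K, P, hN1, hN2, hK1, hK2, hP1, hP2, hP0, ha100, hN4, hK3, hBt⟩ := params hX haX
  set L := ⌊X⌋₊ - 2 with hL
  have hLX : (((L + 2 : ℕ)) : ℝ) ≤ X := by
    have h1 : L + 2 = ⌊X⌋₊ := by
      have : 20 ≤ ⌊X⌋₊ := Nat.le_floor (by exact_mod_cast hX)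
      omega
    rw [h1]
    exact Nat.floor_le (by linarith)
  have hL0 : 0 < L := by
    have : 20 ≤ ⌊X⌋₊ := Nat.le_floor (by exact_mod_cast hX)
    omega
  have hLa : L + 2 ≤ a := by
    have h1 : X ≤ a := by
      refine le_trans ?_ haX
      calc X = X * 1 := by ring
        _ ≤ X * X ^ 7 := by
          have : (1 : ℝ) ≤ X ^ 7 := one_le_pow₀ (by linarith)
          gcongr
        _ = X ^ 8 := by ring
    exact_mod_cast hLX.trans h1
  set x := ex lam (2 + L) with hx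
  have hcolx : ∀ c, x ≤ c → colLen a (ex lam) c - 2 ≤ L := by
    intro c hc
    by_contra hcon
    have h1 : 2 + L < colLen a (ex lam) c := by omega
    rw [lt_colLen_ex hlam] at h1
    omega
  have hX4 : 160000 ≤ X ^ 4 := by
    have : (400 : ℝ) ≤ X ^ 2 := by nlinarith
    nlinarith
  have haX8 : 160000 * (a * X ^ 4) ≤ (a : ℝ) * X ^ 8 := by
    have h1 : X ^ 8 = X ^ 4 * X ^ 4 := by ring
    rw [h1]
    nlinarith [mul_nonneg ha0.le (pow_nonneg (by linarith : (0:ℝ) ≤ X) 4)]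
  set Bt := 3 * (P * (K * (K - 1))) + 2 * (K * P * 2) with hBtdef
  have hA : Bt ≤ ∑ i : Fin (a - 2), (ex lam (2 + i) - x) := by
    have h1 : 2 * Bt ≤ ∑ i, low 2 lam i := by
      have : (((2 * Bt : ℕ)) : ℝ) ≤ ((∑ i, low 2 lam i : ℕ) : ℝ) := by
        rw [Nat.cast_mul]
        refine le_trans ?_ hDl'
        push_cast at hBt ⊢
        nlinarith
      exact_mod_cast this
    omega
  obtain ⟨y, hy1, hy2⟩ := exists_y hlam hcolx hL0 hA
  set F := FI lam x y with hF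
  set D' := ∑ i, etaF lam F i with hD'
  have hD3 : D' ≤ a ^ 3 := by
    have h1 := sum_eta_mu hlam F
    have h2 : a ^ 2 ≤ a ^ 3 := Nat.pow_le_pow_right (by omega) (by omega)
    omega
  have hN1' : (a : ℝ) ^ (1 + 2 * (ε / 8)) ≤ ((K * P * 2 : ℕ) : ℝ) := by
    rw [Real.rpow_add ha0, Real.rpow_one, ← hX2]
    exact hN1
  obtain ⟨-, hnum⟩ := h7 (L + 2) (K * P * 2) D' (ex lam 0) hLX hN1' (ex0_le hsum hb) hD3
  refine compare2 (K := K) (P := P) (x := x) (y := y) (nmax := L) lam hlam hsum hb hX hl1' hDu hN1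
    hN2 hK2 hP1 hP2 hP0 ha100 hN4 hK3 hcolx (by omega) hy1 hy2
    (((ex lam 0 : ℝ) + 1) ^ (L * a)) (1 + (D' : ℝ) / ((K * P * 2 : ℕ) : ℝ)) (by positivity) ?_
    (by positivity) (H403.one_add_sum_le_prod _) ?_
  · have h1 := gt_rows_le (n := a - 2) (L := L) (M := ex lam 0) a (mu := muF lam F)
      (fun i => muF_le F i) (fun i hi => by
        rw [hF, mu_FI hlam]
        have h2 : ex lam (2 + i) ≤ x := ex_anti hlam (by omega)
        omega)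
    exact_mod_cast h1
  · refine le_trans (le_of_eq ?_) (hnum.trans (le_of_eq ?_))
    · rw [← pow_add]
      congr 2
      ring
    · norm_num

end Vale.Agent.P181.H12
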