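import Vale.Agent.P181.H699.Low7
import Vale.Agent.P181.H498.Glue

set_option autoImplicit false

/-!
# P181: lower fillings with a fixed product of minors

A fixed set `F` of columns carries one fixed filling (distinct letters in every column), the other
columns carry all the balanced fillings: the contents are prescribed by the fixed part.
-/

open MvPolynomial
open scoped Classical

namespace Vale.Agent.P181.H12

open Vale.Agent.P181 Vale.Agent.P181.H280 Vale.Agent.P181.FR Vale.Agent.P181.H188W
open Vale.Agent.P181.T4 Vale.Agent.P181.H463 Vale.Agent.P181.H699 Vale.Agent.P181.T7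

/-- A minor with distinct points is a nonzero polynomial. -/
lemma dtP_ne_zero {N n i : ℕ} (hi : i ≤ n) (u : Fin i → Fin N) (hu : Function.Injective u) :
    H498.dtP hi u ≠ 0 := by
  intro h
  have h1 := congrArg (MvPolynomial.eval (fun x : Fin n × Fin N =>
    if ∃ s : Fin i, u s = x.2 ∧ Fin.castLE hi s = x.1 then (1 : ℂ) else 0)) h
  rw [H498.dtP, RingHom.map_det, map_zero] at h1
  have h2 : (MvPolynomial.eval (fun x : Fin n × Fin N =>
      if ∃ s : Fin i, u s = x.2 ∧ Fin.castLE hi s = x.1 then (1 : ℂ) else 0)).mapMatrix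
      (Matrix.of fun r s : Fin i => (X (Fin.castLE hi r, u s) : MvPolynomial (Fin n × Fin N) ℂ)) =
      1 := by
    ext r s
    rw [RingHom.mapMatrix_apply, Matrix.map_apply, Matrix.of_apply, MvPolynomial.eval_X,
      Matrix.one_apply]
    congr 1
    apply propext
    constructor
    · rintro ⟨s', h3, h4⟩
      rw [hu h3] at h4
      exact (Fin.castLE_injective hi h4).symm
    · rintro rfl
      exact ⟨r, rfl, rfl⟩
  rw [h2, Matrix.det_one] at h1
  exact one_ne_zero h1

lemma card_subtype_filter {C : Type} [Fintype C] (F : Finset C) (p : C → Prop) :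
    (Finset.univ.filter fun c : {c : C // c ∉ F} => p c).card =
      (Finset.univ.filter fun c : C => c ∉ F ∧ p c).card := by
  rw [← Finset.card_map (Function.Embedding.subtype _)]
  congr 1
  ext c
  simp only [Finset.mem_map, Finset.mem_filter, Finset.mem_univ, true_and,
    Function.Embedding.coe_subtype]
  constructor
  · rintro ⟨c', h1, rfl⟩
    exact ⟨c'.2, h1⟩
  · rintro ⟨h1, h2⟩
    exact ⟨⟨c, h1⟩, h2, rfl⟩

lemma prod_split {C : Type} [Fintype C] {M : Type*} [CommMonoid M] (F : Finset C) (f : C → M) :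
    ∏ c, f c = (∏ c ∈ F, f c) * ∏ c : {c : C // c ∉ F}, f c := by
  have h1 : ∏ c : {c : C // c ∉ F}, f c = ∏ c ∈ Fᶜ, f c := by
    symm
    exact Finset.prod_subtype _ (fun c => by simp) f
  rw [h1, Finset.prod_mul_prod_compl]

lemma sum_split' {C : Type} [Fintype C] (F : Finset C) (f : C → ℕ) :
    ∑ c, f c = (∑ c ∈ F, f c) + ∑ c : {c : C // c ∉ F}, f c := by
  have h1 : ∑ c : {c : C // c ∉ F}, f c = ∑ c ∈ Fᶜ, f c := by
    symm
    exact Finset.sum_subtype _ (fun c => by simp) f
  rw [h1, Finset.sum_add_sum_compl]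

/-- Many linearly independent fillings of the rows `≥ R` of given columns: the columns of `F`
carry a fixed filling, the others a filling with balanced contents. -/
theorem exists_lower_fix {m R N : ℕ} {C : Type} [Fintype C] (len : C → ℕ)
    (len_le : ∀ c, len c ≤ m) (F : Finset C) (η : Fin (m - R) → ℕ)
    (hη : ∀ i : Fin (m - R),
      (Finset.univ.filter fun c => c ∉ F ∧ R + (i : ℕ) < len c).card = η i)
    (fx : (c : C) → Fin (len c - R) → Fin N) (hfx : ∀ c ∈ F, Function.Injective (fx c))
    (d : Fin N → ℕ) (hd : ∀ i j, d i ≤ d j + 1) (hs : ∑ q, d q = ∑ i, η i) :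
    ∃ (ι : Type) (_ : Fintype ι) (lo : ι → (c : C) → Fin (len c - R) → Fin N),
      (∀ β q, ∑ c, (Finset.univ.filter fun s => lo β c s = q).card =
        d q + ∑ c ∈ F, (Finset.univ.filter fun s => fx c s = q).card) ∧
      LinearIndependent ℂ (fun β : ι => ∏ c, dt (B := N) (m := m - R)
        (Nat.sub_le_sub_right (len_le c) R) (lo β c)) ∧
      gt (m - R) N η ≤ ((∑ i, η i) + N - 1).choose (N - 1) * Fintype.card ι := by
  obtain ⟨ι, hι, lo, h1, h2, h3⟩ := exists_lower (R := R) (N := N)
    (fun c : {c : C // c ∉ F} => len c)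
    (fun c => len_le c) η (fun i => by
      rw [← hη i]
      convert card_subtype_filter F (fun c => R + (i : ℕ) < len c)) d hd hs
  refine ⟨ι, hι, fun β c => if h : c ∈ F then fx c else lo β ⟨c, h⟩, ?_, ?_, h3⟩
  · intro β q
    rw [sum_split' F, add_comm, ← h1 β q]
    congr 1
    · refine Finset.sum_congr rfl fun c _ => ?_
      simp only [dif_neg c.2]
    · refine Finset.sum_congr rfl fun c hc => ?_
      simp only [dif_pos hc]
  · have hlen : ∀ c, len c - R ≤ m - R := fun c => Nat.sub_le_sub_right (len_le c) R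
    apply H498.linInd_dtP (fun c => len c - R) hlen
    have h4 : LinearIndependent ℂ (fun β : ι => ∏ c : {c : C // c ∉ F},
        H498.dtP (hlen c) (lo β c)) := by
      apply LinearIndependent.of_comp (evalP N (m - R))
      convert h2 using 1
      funext β
      exact H498.evalP_prod_dtP (fun c : {c : C // c ∉ F} => len c - R) (fun c => hlen c) (lo β)
    have h5 : (∏ c ∈ F, H498.dtP (hlen c) (fx c)) ≠ 0 :=
      Finset.prod_ne_zero_iff.2 fun c hc => dtP_ne_zero (hlen c) (fx c) (hfx c hc)
    have h6 := h4.map' (LinearMap.mulLeft ℂ (∏ c ∈ F, H498.dtP (hlen c) (fx c)))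
      (LinearMap.ker_eq_bot.2 (fun x y h => by
        simp only [LinearMap.mulLeft_apply] at h
        exact mul_left_cancel₀ h5 h))
    have h7 : (fun β : ι => ∏ c, H498.dtP (hlen c)
        (if h : c ∈ F then fx c else lo β ⟨c, h⟩)) =
        ⇑(LinearMap.mulLeft ℂ (∏ c ∈ F, H498.dtP (hlen c) (fx c))) ∘
          (fun β : ι => ∏ c : {c : C // c ∉ F}, H498.dtP (hlen c) (lo β c)) := by
      funext β
      rw [Function.comp_apply, LinearMap.mulLeft_apply, prod_split F]
      congr 1
      · refine Finset.prod_congr rfl fun c hc => ?_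
        rw [dif_pos hc]
      · refine Finset.prod_congr rfl fun c _ => ?_
        rw [dif_neg c.2]
    exact h7 ▸ h6

end Vale.Agent.P181.H12
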